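import Vale.Agent.P147.Cond.Main

/-!
P147: the sign-union law for elliptic environments.
-/

open MeasureTheory Filter Finset
open scoped ENNReal Topology symmDiff

namespace Vale.Agent.P147.Cond

variable {d k : ℕ} [NeZero k]

section Marks

variable (Q : Measure (ℕ → Fin k)) (M : ℕ → (ℕ → Fin k) → Prop) (i0 : Fin k)

/-- Number of marked times before `n`. -/
noncomputable def marks (n : ℕ) (t : ℕ → Fin k) : ℕ :=
  open Classical in ((range n).filter fun j => M j t).card

/-- No marked time before `n` uses the step `i0`. -/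
def clean (n : ℕ) (t : ℕ → Fin k) : Prop := ∀ j < n, M j t → t j ≠ i0

/-- A sum over prefixes. -/
theorem sum_prefix (Q : Measure (ℕ → Fin k)) (n : ℕ) {E : Set (ℕ → Fin k)}
    (hE : ∀ t t' : ℕ → Fin k, (∀ i < n, t i = t' i) → t ∈ E → t' ∈ E) {C : Set (ℕ → Fin k)}
    (hC : MeasurableSet C) :
    open Classical in
    Q (E ∩ C) = ∑ w : Fin n → Fin k, if ext' w ∈ E then
      Q ({t | ∀ i < n, t i = ext' w i} ∩ C) else 0 := by
  classical
  rw [← sum_filter, ← measure_biUnion_finset ?_ fun w _ => ?_]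
  · congr 1
    ext t
    simp only [Set.mem_inter_iff, Set.mem_setOf_eq, Set.mem_iUnion, mem_filter, mem_univ,
      true_and, exists_prop]
    constructor
    · rintro ⟨h1, h2⟩
      refine ⟨fun i => t i, hE t _ (fun i hi => ?_) h1, fun i hi => ?_, h2⟩ <;> simp [ext', hi]
    · rintro ⟨w, h1, h2, h3⟩
      exact ⟨hE _ t (fun i hi => (h2 i hi).symm) h1, h3⟩
  · intro w _ w' _ hne
    refine Set.disjoint_left.2 fun t h h' => hne (funext fun i => ?_)
    have := (h.1 i i.2).symm.trans (h'.1 i i.2)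
    simpa [ext'] using this
  · refine MeasurableSet.inter ?_ hC
    simp only [Set.setOf_forall]
    exact .iInter fun i => .iInter fun _ => measurable_pi_apply i (measurableSet_singleton _)

/-- Infinitely many marked times cannot all avoid a step of conditional probability at least
`ε`. -/
theorem marks_null [IsProbabilityMeasure Q] {ε : ℝ≥0∞} (hε : ε ≠ 0)
    (hM : ∀ n, ∀ t t' : ℕ → Fin k, (∀ i < n, t i = t' i) → M n t → M n t')
    (hp : ∀ n (s : ℕ → Fin k), M n s → ε * Q {t | ∀ i < n, t i = s i} ≤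
      Q ({t | ∀ i < n, t i = s i} ∩ {t | t n = i0})) :
    Q {t | (∀ K, ∃ n, K ≤ marks M n t) ∧ ∀ j, M j t → t j ≠ i0} = 0 := by
  classical
  set B : ℕ → ℕ → Set (ℕ → Fin k) := fun K n =>
    {t | M n t ∧ marks M n t = K ∧ clean M i0 n t}
  set A : ℕ → Set (ℕ → Fin k) := fun K => {t | ∃ n, marks M n t = K ∧ clean M i0 n t}
  have hMc : ∀ n, ∀ t t' : ℕ → Fin k, (∀ i < n, t i = t' i) → ∀ j < n, (M j t ↔ M j t') :=
    fun n t t' h j hj => ⟨hM j t t' fun i hi => h i (hi.trans hj),
      hM j t' t fun i hi => (h i (hi.trans hj)).symm⟩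
  have hB : ∀ K n, ∀ t t' : ℕ → Fin k, (∀ i < n, t i = t' i) → t ∈ B K n → t' ∈ B K n := by
    rintro K n t t' h ⟨h1, h2, h3⟩
    refine ⟨hM n t t' h h1, ?_, fun j hj hm => ?_⟩
    · rw [← h2, marks, marks]
      congr 1
      exact filter_congr fun j hj => (hMc n t t' h j (mem_range.1 hj)).symm
    · rw [← h j hj]; exact h3 j hj ((hMc n t t' h j hj).2 hm)
  have hBm : ∀ K n, MeasurableSet (B K n) := fun K n => measurableSet_of_prefix n (hB K n)
  have hi : ∀ n, MeasurableSet {t : ℕ → Fin k | t n = i0} := fun n =>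
    (measurableSet_singleton i0).preimage (measurable_pi_apply n)
  have hstep : ∀ K n, Q (B K n \ {t | t n = i0}) ≤ (1 - ε) * Q (B K n) := by
    intro K n
    have h1 : ε * Q (B K n) ≤ Q (B K n ∩ {t | t n = i0}) := by
      rw [show Q (B K n) = Q (B K n ∩ Set.univ) by rw [Set.inter_univ],
        sum_prefix Q n (hB K n) MeasurableSet.univ, sum_prefix Q n (hB K n) (hi n), mul_sum]
      refine sum_le_sum fun w _ => ?_
      split_ifs with hw
      · simpa using hp n _ hw.1
      · simp
    rw [← Set.sdiff_inter_self_eq_sdiff, Set.inter_comm,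
      measure_sdiff Set.inter_subset_left ((hBm K n).inter (hi n)).nullMeasurableSet
        (measure_ne_top _ _), ENNReal.sub_mul (fun _ _ => measure_ne_top _ _), one_mul]
    exact tsub_le_tsub_left h1 _
  have hmono : ∀ {t : ℕ → Fin k} {a b : ℕ}, a ≤ b → marks M a t ≤ marks M b t := fun h =>
    card_le_card (filter_subset_filter _ (range_subset_range.2 h))
  have hsucc : ∀ (t : ℕ → Fin k) n,
      marks M (n + 1) t = marks M n t + if M n t then 1 else 0 := fun t n => by
    simp only [marks, range_add_one, filter_insert]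
    split_ifs with h
    · rw [card_insert_of_notMem (by simp)]
    · simp
  have hdisj : ∀ K, Pairwise (Function.onFun Disjoint (B K)) := fun K a b hab => by
    refine Set.disjoint_left.2 fun t ha hb => ?_
    rcases lt_or_gt_of_ne hab with h | h
    · have := hmono (t := t) (Nat.succ_le_of_lt h)
      rw [hsucc, if_pos ha.1, ha.2.1, hb.2.1] at this
      omega
    · have := hmono (t := t) (Nat.succ_le_of_lt h)
      rw [hsucc, if_pos hb.1, ha.2.1, hb.2.1] at this
      omega
  have hA : ∀ K, Q (A (K + 1)) ≤ (1 - ε) * Q (A K) := by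
    intro K
    have hsub : A (K + 1) ⊆ ⋃ n, B K n \ {t | t n = i0} := by
      rintro t ⟨N, hN, hc⟩
      have hex : ∃ n, K + 1 ≤ marks M n t := ⟨N, hN.ge⟩
      have hf := Nat.find_spec hex
      obtain ⟨n, hn⟩ : ∃ n, Nat.find hex = n + 1 := Nat.exists_eq_succ_of_ne_zero fun h => by
        rw [h] at hf; simp [marks] at hf
      have hlt : marks M n t ≤ K :=
        Nat.le_of_lt_succ (not_le.1 (Nat.find_min hex (by omega)))
      have hnN : n < N := by
        have := Nat.find_min' hex hN.ge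
        omega
      rw [hn, hsucc] at hf
      split_ifs at hf with h
      · exact Set.mem_iUnion.2 ⟨n, ⟨h, by omega, fun j hj => hc j (hj.trans hnN)⟩, hc n hnN h⟩
      · omega
    calc Q (A (K + 1)) ≤ ∑' n, Q (B K n \ {t | t n = i0}) :=
          (measure_mono hsub).trans (measure_iUnion_le _)
      _ ≤ ∑' n, (1 - ε) * Q (B K n) := ENNReal.tsum_le_tsum (hstep K)
      _ = (1 - ε) * Q (⋃ n, B K n) := by
          rw [ENNReal.tsum_mul_left, measure_iUnion (hdisj K) (hBm K)]
      _ ≤ _ := by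
          gcongr
          exact Set.iUnion_subset fun n t ht => ⟨n, ht.2⟩
  have hpow : ∀ K, Q (A K) ≤ (1 - ε) ^ K := fun K => by
    induction K with
    | zero => simpa using prob_le_one
    | succ K ih =>
      rw [pow_succ, mul_comm]
      exact (hA K).trans (by gcongr)
  refine le_antisymm (ge_of_tendsto (ENNReal.tendsto_pow_atTop_nhds_zero_of_lt_one
    (ENNReal.sub_lt_self ENNReal.one_ne_top one_ne_zero hε)) (Eventually.of_forall fun K => ?_))
    bot_le
  refine (measure_mono ?_).trans (hpow K)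
  rintro t ⟨h1, h2⟩
  have hex := h1 K
  refine ⟨Nat.find hex, le_antisymm ?_ (Nat.find_spec hex), fun j _ => h2 j⟩
  rcases h : Nat.find hex with _ | n
  · simp [marks]
  · have := Nat.find_min hex (show n < Nat.find hex by omega)
    rw [hsucc]
    split_ifs <;> omega

end Marks

variable (v : Fin k → Site d) (μ : Measure (Row k)) [IsProbabilityMeasure μ] (ht : Site d →+ ℝ)

theorem measurable_row (i : Fin k) : Measurable fun p : Row k => ENNReal.ofReal (p.1 i) :=
  ENNReal.measurable_ofReal.comp ((measurable_pi_apply i).comp measurable_subtype_coe)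

theorem weight_succ (s : ℕ → Fin k) (n : ℕ) (i : Fin k) (ω : Site d → Row k) :
    weight v (Function.update s n i) (n + 1) ω =
      weight v s n ω * ENNReal.ofReal ((ω (pos v s n)).1 i) := by
  have h : ∀ j ≤ n, pos v (Function.update s n i) j = pos v s j := fun j hj =>
    pos_congr v (fun a ha => Function.update_of_ne ha.ne _ _) hj
  rw [weight, prod_range_succ, h n le_rfl, Function.update_self]
  refine congrArg (· * _) (prod_congr rfl fun j hj => ?_)
  rw [h j (mem_range.1 hj).le, Function.update_of_ne (mem_range.1 hj).ne]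

omit [NeZero k] in
theorem prefix_succ (s : ℕ → Fin k) (n : ℕ) (i : Fin k) :
    {t : ℕ → Fin k | ∀ j < n, t j = s j} ∩ {t | t n = i} =
      {t | ∀ j < n + 1, t j = Function.update s n i j} := by
  ext t
  simp only [Set.mem_inter_iff, Set.mem_setOf_eq, Nat.forall_lt_succ_right, Function.update_self]
  refine and_congr_left fun _ => forall₂_congr fun j hj => ?_
  rw [Function.update_of_ne hj.ne]

theorem quenched_cyl (ω : Site d → Row k) (s : ℕ → Fin k) (n : ℕ) :
    quenched v ω {t | ∀ i < n, t i = s i} = weight v s n ω := by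
  have := quenched_prefix v ω s n (B := Set.univ) MeasurableSet.univ
  simpa [quenched] using this

/-- Marks at a first visit above a level, from time `m` on. -/
def FreshMark (m : ℕ) (a : ℝ) (n : ℕ) (t : ℕ → Fin k) : Prop :=
  m ≤ n ∧ a ≤ ht (pos v t n) ∧ ∀ j < n, pos v t j ≠ pos v t n

/-- Marks at visits of one site, from time `m` on. -/
def SiteMark (m : ℕ) (y : Site d) (n : ℕ) (t : ℕ → Fin k) : Prop := m ≤ n ∧ pos v t n = y

theorem fresh_null (i0 : Fin k) (hpos : ∀ᵐ p ∂μ, 0 < p.1 i0) (m : ℕ) (a : ℝ) :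
    law v μ {t | (∀ K, ∃ n, K ≤ marks (FreshMark v ht m a) n t) ∧
      ∀ j, FreshMark v ht m a j t → t j ≠ i0} = 0 := by
  set ε := ∫⁻ p : Row k, ENNReal.ofReal (p.1 i0) ∂μ
  refine marks_null (law v μ) _ i0 (ε := ε) ?_ ?_ ?_
  · intro h
    rw [lintegral_eq_zero_iff (measurable_row i0)] at h
    obtain ⟨p, h1, h2⟩ := (h.and hpos).exists
    simp at h1
    linarith
  · rintro n t t' h ⟨h1, h2, h3⟩
    refine ⟨h1, by rwa [← pos_congr v h le_rfl], fun j hj => ?_⟩
    rw [← pos_congr v h hj.le, ← pos_congr v h le_rfl]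
    exact h3 j hj
  · rintro n s ⟨-, -, hfr⟩
    rw [prefix_succ, law_prefix, law_prefix]
    refine le_of_eq ?_
    simp only [weight_succ]
    set x := pos v s n
    set g : (Site d → Row k) → ℝ≥0∞ := fun ω => ENNReal.ofReal ((ω x).1 i0)
    have hg : Measurable g := (measurable_row i0).comp (measurable_pi_apply x)
    have hw : ∀ z, weight v s n (comb {x} z) = weight v s n z.2 := fun z =>
      prod_congr rfl fun i hi => by
        rw [comb, if_neg (show pos v s i ∉ ({x} : Set (Site d)) from hfr i (mem_range.1 hi))]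
    have hx : ∀ z, g (comb {x} z) = g z.1 := fun z => by simp [g, comb]
    calc ε * ∫⁻ ω, weight v s n ω ∂envLaw μ
        = (∫⁻ ω, g ω ∂envLaw μ) * ∫⁻ ω, weight v s n ω ∂envLaw μ := by
          congr 1
          have := lintegral_map (μ := envLaw (d := d) μ) (measurable_row i0) (measurable_pi_apply x)
          rw [(measurePreserving_eval_infinitePi (fun _ : Site d => μ) x).map_eq] at this
          exact this
      _ = ∫⁻ z, g z.1 * weight v s n z.2 ∂(envLaw μ).prod (envLaw μ) :=
          (lintegral_prod_mul hg.aemeasurable (measurable_weight v s n).aemeasurable).symm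
      _ = ∫⁻ z, (fun ω => weight v s n ω * g ω) (comb {x} z) ∂(envLaw μ).prod (envLaw μ) :=
          lintegral_congr fun z => by simp only [hw, hx]; rw [mul_comm]
      _ = _ := by
          rw [← lintegral_map (f := fun ω => weight v s n ω * g ω)
            ((measurable_weight v s n).mul hg) (measurable_comb _), map_comb]

theorem measurable_mem {A : Set (ℕ → Fin k)} {n : ℕ}
    (h : ∀ t t' : ℕ → Fin k, (∀ i < n, t i = t' i) → t ∈ A → t' ∈ A) : MeasurableSet A :=
  measurableSet_of_prefix n h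

theorem site_quenched (i0 : Fin k) (m : ℕ) (y : Site d) (ω : Site d → Row k)
    (hω : 0 < (ω y).1 i0)
    (hS : MeasurableSet {t | (∀ K, ∃ n, K ≤ marks (SiteMark v m y) n t) ∧
      ∀ j, SiteMark v m y j t → t j ≠ i0}) :
    quenched v ω {t | (∀ K, ∃ n, K ≤ marks (SiteMark v m y) n t) ∧
      ∀ j, SiteMark v m y j t → t j ≠ i0} = 0 := by
  have hms : Measurable fun u : ℕ → ℝ => steps v ω u :=
    Measurable.comp (g := fun z : (Site d → Row k) × (ℕ → ℝ) => steps v z.1 z.2)
      (f := fun u : ℕ → ℝ => (ω, u)) (measurable_steps v) (measurable_const.prodMk measurable_id)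
  set Q := uLaw.map fun u => steps v ω u with hQd
  have : IsProbabilityMeasure Q := Measure.isProbabilityMeasure_map hms.aemeasurable
  have hQ : ∀ (B : Set (ℕ → Fin k)), MeasurableSet B → Q B = quenched v ω B := fun B hB => by
    rw [hQd, Measure.map_apply hms hB]
    rfl
  have hcyl : ∀ n (s : ℕ → Fin k), Q {t | ∀ i < n, t i = s i} = weight v s n ω := fun n s => by
    have hm : MeasurableSet {t : ℕ → Fin k | ∀ i < n, t i = s i} :=
      measurable_mem (n := n) fun t t' h ht i hi => (h i hi).symm.trans (ht i hi)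
    rw [hQ _ hm, quenched_cyl]
  rw [← hQ _ hS]
  refine marks_null Q _ i0 (ε := ENNReal.ofReal ((ω y).1 i0))
    (ENNReal.ofReal_pos.2 hω).ne' (fun n t t' h ht => ⟨ht.1, (pos_congr v h le_rfl).symm.trans ht.2⟩)
    fun n s hs => ?_
  rw [prefix_succ, hcyl, hcyl, weight_succ, hs.2, mul_comm]

theorem site_null (i0 : Fin k) (hpos : ∀ᵐ p ∂μ, 0 < p.1 i0) (m : ℕ) (y : Site d) :
    law v μ {t | (∀ K, ∃ n, K ≤ marks (SiteMark v m y) n t) ∧
      ∀ j, SiteMark v m y j t → t j ≠ i0} = 0 := by
  have hM : ∀ n, ∀ t t' : ℕ → Fin k, (∀ i < n, t i = t' i) → SiteMark v m y n t →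
      SiteMark v m y n t' := fun n t t' h ⟨h1, h2⟩ => ⟨h1, by rwa [← pos_congr v h le_rfl]⟩
  set S := {t | (∀ K, ∃ n, K ≤ marks (SiteMark v m y) n t) ∧
      ∀ j, SiteMark v m y j t → t j ≠ i0}
  have hS : MeasurableSet S := by
    classical
    have : S = (⋂ K, ⋃ n, {t | K ≤ marks (SiteMark v m y) n t}) ∩
        ⋂ j, {t | SiteMark v m y j t → t j ≠ i0} := by
      ext t; simp [S]
    rw [this]
    refine .inter (.iInter fun K => .iUnion fun n => measurable_mem (n := n) ?_)
      (.iInter fun j => measurable_mem (n := j + 1) ?_)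
    · intro t t' h ht
      simp only [Set.mem_setOf_eq] at ht ⊢
      refine ht.trans_eq ?_
      unfold marks
      congr 1
      exact filter_congr fun j hj => by
        have hj := mem_range.1 hj
        exact ⟨hM j t t' fun i hi => h i (hi.trans hj),
          hM j t' t fun i hi => (h i (hi.trans hj)).symm⟩
    · intro t t' h ht hm
      rw [← h j j.lt_succ_self]
      exact ht (hM j t' t (fun i hi => (h i (hi.trans j.lt_succ_self)).symm) hm)
  rw [law_apply v μ hS]
  have hae : ∀ᵐ ω ∂envLaw μ, 0 < ((ω y).1 i0 : ℝ) :=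
    (measurePreserving_eval_infinitePi (fun _ : Site d => μ) y).quasiMeasurePreserving.ae hpos
  refine lintegral_eq_zero_of_ae_eq_zero ?_
  filter_upwards [hae] with ω hω
  exact site_quenched v i0 m y ω hω hS

/-- Unbounded above. -/
def unb : Set (ℕ → Fin k) := {t | ∀ M : ℝ, ∃ n, M < ht (pos v t n)}

theorem measurableSet_unb : MeasurableSet (unb v ht) := by
  have : unb v ht = ⋂ M : ℕ, ⋃ n, {t | (M : ℝ) < ht (pos v t n)} := by
    ext t
    simp only [unb, Set.mem_setOf_eq, Set.mem_iInter, Set.mem_iUnion]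
    refine ⟨fun h M => h M, fun h b => ?_⟩
    obtain ⟨M, hM⟩ := exists_nat_ge b
    obtain ⟨n, hn⟩ := h M
    exact ⟨n, hM.trans_lt hn⟩
  rw [this]
  exact .iInter fun M => .iUnion fun n =>
    measurableSet_lt measurable_const (measurable_height v ht n)

/-- An elliptic walk is unbounded above or escapes downwards. -/
theorem unb_or_down (i0 : Fin k) (hpos : ∀ᵐ p ∂μ, 0 < p.1 i0) (hd0 : 0 < ht (v i0)) :
    ∀ᵐ t ∂law v μ, t ∈ unb v ht ∨ t ∈ up v (-ht) := by
  set δ := ht (v i0)
  have h1 : ∀ᵐ t ∂law v μ, ∀ (z : ℤ) (m : ℕ), ¬((∀ K, ∃ n,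
      K ≤ marks (FreshMark v ht m (z * δ)) n t) ∧
        ∀ j, FreshMark v ht m (z * δ) j t → t j ≠ i0) := by
    simp only [ae_all_iff]
    intro z m
    rw [ae_iff]
    simpa only [not_not] using fresh_null v μ ht i0 hpos m _
  have h2 : ∀ᵐ t ∂law v μ, ∀ (y : Site d) (m : ℕ), ¬((∀ K, ∃ n,
      K ≤ marks (SiteMark v m y) n t) ∧ ∀ j, SiteMark v m y j t → t j ≠ i0) := by
    simp only [ae_all_iff]
    intro y m
    rw [ae_iff]
    simpa only [not_not] using site_null v μ i0 hpos m y
  filter_upwards [h1, h2] with t h1 h2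
  classical
  have hmarks : ∀ {M : ℕ → (ℕ → Fin k) → Prop}, {j | M j t}.Infinite →
      ∀ K, ∃ n, K ≤ marks M n t := fun {M} h K => by
    obtain ⟨F, hF, hc⟩ := h.exists_subset_card_eq K
    refine ⟨F.sup id + 1, hc.symm.le.trans (card_le_card fun j hj => mem_filter.2
      ⟨mem_range.2 (Nat.lt_succ_of_le (le_sup (f := id) hj)), hF hj⟩)⟩
  have hclimb : ∀ z : ℤ, (∀ m, ∃ n ≥ m, z * δ ≤ ht (pos v t n)) →
      ∀ m, ∃ n ≥ m, ((z + 1 : ℤ) : ℝ) * δ ≤ ht (pos v t n) := by
    intro z hz m
    obtain ⟨j, hmj, hzj, hji⟩ : ∃ j ≥ m, (z : ℝ) * δ ≤ ht (pos v t j) ∧ t j = i0 := by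
      by_cases hrep : ∃ y, (z : ℝ) * δ ≤ ht y ∧ {n | m ≤ n ∧ pos v t n = y}.Infinite
      · obtain ⟨y, hy, hinf⟩ := hrep
        have := h2 y m
        rw [not_and] at this
        have := this (hmarks hinf)
        push Not at this
        obtain ⟨j, ⟨hj1, hj2⟩, hj3⟩ := this
        exact ⟨j, hj1, hj2 ▸ hy, hj3⟩
      · push Not at hrep
        have := h1 z m
        rw [not_and] at this
        refine (fun h => ?_) (this (hmarks ?_))
        · push Not at h
          obtain ⟨j, ⟨hj1, hj2, -⟩, hj3⟩ := h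
          exact ⟨j, hj1, hj2, hj3⟩
        · intro hfin
          set Y : Set (Site d) := (fun j => pos v t j) '' {j | FreshMark v ht m (z * δ) j t} ∪
            (fun j => pos v t j) '' Set.Iio m
          have hY : Y.Finite := (hfin.image _).union ((Set.finite_Iio m).image _)
          have hbig : {n | m ≤ n ∧ (z : ℝ) * δ ≤ ht (pos v t n)}.Infinite :=
            Set.infinite_of_forall_exists_gt fun a => by
              obtain ⟨n, hn, hn'⟩ := hz (max (a + 1) m)
              exact ⟨n, ⟨le_trans (le_max_right _ _) hn, hn'⟩, le_trans (le_max_left _ _) hn⟩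
          refine hbig ((hY.biUnion fun y _ => ?_).subset ?_ (s := ⋃ y ∈ Y,
            {n | m ≤ n ∧ pos v t n = y ∧ (z : ℝ) * δ ≤ ht y}))
          · by_cases hy : (z : ℝ) * δ ≤ ht y
            · exact (hrep y hy).subset fun n hn => ⟨hn.1, hn.2.1⟩
            · exact Set.finite_empty.subset fun n hn => hy hn.2.2
          · rintro n ⟨hn1, hn2⟩
            simp only [Set.mem_iUnion, exists_prop]
            refine ⟨pos v t n, ?_, hn1, rfl, hn2⟩
            have hex : ∃ j, pos v t j = pos v t n := ⟨n, rfl⟩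
            by_cases hlt : Nat.find hex < m
            · exact Or.inr ⟨_, hlt, Nat.find_spec hex⟩
            · refine Or.inl ⟨_, ⟨not_lt.1 hlt, ?_, fun i hi => ?_⟩, Nat.find_spec hex⟩
              · rw [Nat.find_spec hex]; exact hn2
              · rw [Nat.find_spec hex]; exact Nat.find_min hex hi
    refine ⟨j + 1, by omega, ?_⟩
    have : pos v t (j + 1) = pos v t j + v i0 := by rw [pos, sum_range_succ, hji]; rfl
    rw [this, map_add, Int.cast_add, Int.cast_one, add_mul, one_mul]
    linarith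
  by_cases hex : ∃ z : ℤ, ∀ m, ∃ n ≥ m, (z : ℝ) * δ ≤ ht (pos v t n)
  · left
    obtain ⟨z, hz⟩ := hex
    have hall : ∀ q : ℕ, ∀ m, ∃ n ≥ m, ((z + q : ℤ) : ℝ) * δ ≤ ht (pos v t n) := fun q => by
      induction q with
      | zero => simpa using hz
      | succ q ih =>
        have := hclimb _ ih
        simpa [add_assoc] using this
    intro M
    obtain ⟨q, hq⟩ := exists_nat_gt (M / δ - z)
    obtain ⟨n, -, hn⟩ := hall q 0
    refine ⟨n, lt_of_lt_of_le ?_ hn⟩
    have : M / δ < ((z + q : ℤ) : ℝ) := by push_cast; linarith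
    rwa [div_lt_iff₀ hd0] at this
  · right
    push Not at hex
    refine tendsto_atTop_atTop.2 fun b => ?_
    obtain ⟨m, hm⟩ := hex ⌊-b / δ⌋
    refine ⟨m, fun n hn => ?_⟩
    have := hm n hn
    have h3 := mul_le_mul_of_nonneg_right (Int.floor_le (-b / δ)) hd0.le
    rw [div_mul_cancel₀ _ hd0.ne'] at h3
    simp only [AddMonoidHom.neg_apply]
    linarith

/-- Invariant events on an event of unboundedness. -/
theorem mul_eq_zero_of_invariant_gen {B : Set (ℕ → Fin k)} (hB : MeasurableSet B)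
    (hinv : ∀ t, t ∈ B ↔ (fun i => t (i + 1)) ∈ B) {U : Set (ℕ → Fin k)} (hU : MeasurableSet U)
    (hUb : ∀ t ∈ U, ∀ M : ℝ, ∃ n, M < ht (pos v t n)) :
    law v μ (Bᶜ ∩ stay v ht) * law v μ (U ∩ B) = 0 := by
  classical
  set P := law v μ
  set c := P (Bᶜ ∩ stay v ht)
  have hmc : MeasurableSet (Bᶜ ∩ stay v ht) := hB.compl.inter (measurableSet_stay v ht)
  refine le_antisymm (ENNReal.le_of_forall_pos_le_add fun ε hε _ => ?_) bot_le
  rw [zero_add]
  have hd : P.MeasureDense (measurableCylinders fun _ : ℕ => Fin k) :=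
    Measure.MeasureDense.of_generateFrom_isSetAlgebra_finite P isSetAlgebra_measurableCylinders
      generateFrom_measurableCylinders.symm
  obtain ⟨C, hC, hCε⟩ := hd.approx _ (hU.inter hB) (measure_ne_top _ _)
    (ε / 2 : ℝ) (by positivity)
  obtain ⟨S, S', -, rfl⟩ := (mem_measurableCylinders _).1 hC
  set N := S.sup id + 1
  have hdep : ∀ n, N ≤ n → ∀ t t' : ℕ → Fin k, (∀ i < n, t i = t' i) →
      t ∈ cylinder S S' → t' ∈ cylinder S S' := fun n hn t t' h ht' => by
    have : S.restrict t = S.restrict t' := funext fun i => h i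
      (lt_of_lt_of_le (Nat.lt_succ_of_le (le_sup (f := id) i.2)) hn)
    rw [mem_cylinder] at ht' ⊢
    rwa [← this]
  set E : ℕ → Set (ℕ → Fin k) := fun n =>
    {t | t ∈ cylinder S S' ∧ N ≤ n ∧ Rec v ht n t ∧ ∀ m < n, N ≤ m → ¬ Rec v ht m t}
  have hE : ∀ n, ∀ t t' : ℕ → Fin k, (∀ i < n, t i = t' i) → t ∈ E n → t' ∈ E n := by
    rintro n t t' h ⟨h1, h2, h3, h4⟩
    refine ⟨hdep n h2 t t' h h1, h2, fun j hj => ?_, fun m hm hNm hr => h4 m hm hNm fun j hj => ?_⟩
    · rw [← pos_congr v h hj.le, ← pos_congr v h le_rfl]; exact h3 j hj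
    · rw [pos_congr v h (hj.trans hm).le, pos_congr v h hm.le]; exact hr j hj
  have hsplit : ∀ n, P (E n ∩ {t | (fun i => t (n + i)) ∈ Bᶜ ∩ stay v ht}) = P (E n) * c := by
    intro n
    have h1 := decompose v μ n (hE n) _ hmc
    have h2 := decompose v μ n (hE n) Set.univ .univ
    simp only [Set.mem_univ, Set.setOf_true, Set.inter_univ, and_true] at h2
    rw [h1, h2, sum_mul]
    refine sum_congr rfl fun w _ => ?_
    split_ifs with hw
    · exact law_record v μ ht hw.2.2.1 hmc Set.inter_subset_right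
    · rw [zero_mul]
  have hdisj : Pairwise (Function.onFun Disjoint E) := fun a b hab => by
    refine Set.disjoint_left.2 fun t ha hb => ?_
    rcases lt_or_gt_of_ne hab with h | h
    exacts [hb.2.2.2 a h ha.2.1 ha.2.2.1, ha.2.2.2 b h hb.2.1 hb.2.2.1]
  have hEm : ∀ n, MeasurableSet (E n) := fun n => measurableSet_of_prefix n (hE n)
  have hsh : ∀ n, MeasurableSet {t : ℕ → Fin k | (fun i => t (n + i)) ∈ Bᶜ ∩ stay v ht} :=
    fun n => (measurable_pi_lambda _ fun i => measurable_pi_apply (n + i)) hmc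
  have hcov : cylinder S S' ∩ U ⊆ ⋃ n, E n := by
    rintro t ⟨h1, h2⟩
    have hex : ∃ n, N ≤ n ∧ Rec v ht n t := by
      obtain ⟨M, hM⟩ := ((range (N + 1)).image fun j => ht (pos v t j)).bddAbove
      have hex' : ∃ n, M < ht (pos v t n) := hUb t h2 M
      have hlow : ∀ j ≤ N, ht (pos v t j) ≤ M := fun j hj =>
        hM (mem_image_of_mem (fun j => ht (pos v t j)) (mem_range.2 (Nat.lt_succ_of_le hj)))
      refine ⟨Nat.find hex', ?_, fun j hj => ?_⟩
      · by_contra hlt
        exact absurd (Nat.find_spec hex') (not_lt.2 (hlow _ (not_le.1 hlt).le))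
      · exact lt_of_le_of_lt (not_lt.1 (Nat.find_min hex' hj)) (Nat.find_spec hex')
    exact Set.mem_iUnion.2 ⟨Nat.find hex, h1, (Nat.find_spec hex).1, (Nat.find_spec hex).2,
      fun m hm hNm hr => Nat.find_min hex hm ⟨hNm, hr⟩⟩
  have key : P (cylinder S S' ∩ U) * c ≤ P (cylinder S S' \ B) := by
    calc P (cylinder S S' ∩ U) * c ≤ P (⋃ n, E n) * c := by gcongr
      _ = P (⋃ n, E n ∩ {t | (fun i => t (n + i)) ∈ Bᶜ ∩ stay v ht}) := by
        rw [measure_iUnion hdisj hEm, measure_iUnion ?_ fun n => (hEm n).inter (hsh n),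
          ← ENNReal.tsum_mul_right]
        · exact tsum_congr fun n => (hsplit n).symm
        · exact fun a b hab => (hdisj hab).mono Set.inter_subset_left Set.inter_subset_left
      _ ≤ P (cylinder S S' \ B) := measure_mono <| Set.iUnion_subset fun n t ht' =>
        ⟨ht'.1.1, fun hb => ht'.2.1 ((shift_invariant hinv n t).2 hb)⟩
  have hε2 : P ((U ∩ B) ∆ cylinder S S') ≤ (ε / 2 : NNReal) := by
    refine hCε.le.trans (le_of_eq ?_)
    rw [← ENNReal.ofReal_coe_nnreal]
    simp
  have hc1 : c ≤ 1 := prob_le_one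
  calc c * P (U ∩ B)
      ≤ c * (P (cylinder S S' ∩ U) + P ((U ∩ B) ∆ cylinder S S')) := by
        gcongr
        refine (measure_mono ?_).trans (measure_union_le _ _)
        intro t htm
        by_cases hc : t ∈ cylinder S S'
        · exact Or.inl ⟨hc, htm.1⟩
        · exact Or.inr (Or.inl ⟨htm, hc⟩)
    _ ≤ P (cylinder S S' \ B) + 1 * P ((U ∩ B) ∆ cylinder S S') := by
        rw [mul_add, mul_comm c]
        gcongr
    _ ≤ (ε / 2 : NNReal) + (ε / 2 : NNReal) := by
        rw [one_mul]
        gcongr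
        refine (measure_mono ?_).trans hε2
        exact fun t h => Or.inr ⟨h.1, fun h' => h.2 h'.2⟩
    _ = ε := by rw [← ENNReal.coe_add, add_halves]

/-- On unboundedness every shift-invariant event is decided as on escape. -/
theorem mul_eq_zero_unb {B : Set (ℕ → Fin k)} (hB : MeasurableSet B)
    (hinv : ∀ t, t ∈ B ↔ (fun i => t (i + 1)) ∈ B) :
    law v μ (Bᶜ ∩ stay v ht) * law v μ (unb v ht ∩ B) = 0 := by
  exact mul_eq_zero_of_invariant_gen v μ ht hB hinv (U := unb v ht) (measurableSet_unb v ht)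
    fun t h => h

/-- The sign-union law. -/
theorem union_full (i0 : Fin k) (hpos : ∀ᵐ p ∂μ, 0 < p.1 i0) (hd0 : 0 < ht (v i0))
    (hup : law v μ (up v ht) ≠ 0) : ∀ᵐ t ∂law v μ, t ∈ up v ht ∨ t ∈ up v (-ht) := by
  set O := (up v ht ∪ up v (-ht))ᶜ
  have hO : MeasurableSet O := ((measurableSet_up v ht).union (measurableSet_up v (-ht))).compl
  have hinv : ∀ t, t ∈ O ↔ (fun i => t (i + 1)) ∈ O := fun t =>
    not_congr (or_congr (up_invariant v ht t) (up_invariant v (-ht) t))
  have h := mul_eq_zero_unb v μ ht hO hinv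
  have hc : law v μ (Oᶜ ∩ stay v ht) ≠ 0 := by
    intro h0
    refine hup (measure_mono_null ?_ (measure_iUnion_null fun n =>
      law_shift_null v μ n (hO.compl.inter (measurableSet_stay v ht)) h0))
    intro t ht'
    obtain ⟨n, hn⟩ := Tendsto.exists_forall_le (f := fun m => ht (pos v t m))
      (by rw [Nat.cofinite_eq_atTop]; exact ht')
    refine Set.mem_iUnion.2 ⟨n, fun hc => ?_, fun m => ?_⟩
    · exact ((shift_invariant hinv n t).1 hc) (Or.inl ht')
    · have := hn (n + m)
      rw [pos_add, map_add] at this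
      linarith
  have h' := (mul_eq_zero.1 h).resolve_left hc
  filter_upwards [unb_or_down v μ ht i0 hpos hd0,
    measure_eq_zero_iff_ae_notMem.1 h'] with t h1 h2
  rcases h1 with h1 | h1
  · by_contra hn
    exact h2 ⟨h1, hn⟩
  · exact Or.inr h1

end Vale.Agent.P147.Cond
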