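import Vale.Agent.P147.Cond.Defs

/-!
P147: symmetry of a law of rows.
-/

open MeasureTheory

namespace Vale.Agent.P147.Cond

variable {d k : ℕ}

/-- Every step has positive probability almost surely. -/
def Elliptic (μ : Measure (stdSimplex ℝ (Fin k))) : Prop := ∀ i, ∀ᵐ p ∂μ, 0 < p.1 i

/-- The steps are the `2 d` coordinate unit vectors, once each. -/
def UnitSteps (v : Fin k → Fin d → ℤ) : Prop :=
  Function.Injective v ∧
    Set.range v = {z | ∃ (j : Fin d) (s : ℤ), (s = 1 ∨ s = -1) ∧ z = Pi.single j s}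

/-- The row law is unchanged by the permutation `π` of the steps. -/
def InvariantLaw (μ : Measure (stdSimplex ℝ (Fin k))) (π : Equiv.Perm (Fin k)) : Prop :=
  μ.map (fun p : stdSimplex ℝ (Fin k) => (p.1 ∘ π)) = μ.map Subtype.val

/-- `G` is a finite group of step permutations preserving the row law, realised by the lattice
automorphisms `g`. -/
def SymmetryGroup (μ : Measure (stdSimplex ℝ (Fin k))) (v : Fin k → Fin d → ℤ)
    (G : Finset (Equiv.Perm (Fin k)))
    (g : Equiv.Perm (Fin k) → (Fin d → ℤ) ≃+ (Fin d → ℤ)) : Prop :=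
  G.Nonempty ∧ (∀ a ∈ G, ∀ b ∈ G, a * b ∈ G) ∧ (∀ a ∈ G, ∀ i, v (a i) = g a (v i)) ∧
    (∀ a ∈ G, ∀ b ∈ G, ∀ z, g (a * b) z = g a (g b z)) ∧ ∀ a ∈ G, InvariantLaw μ a

/-- The functional `m` is fixed up to sign by every element. -/
def FixedUpToSign (G : Finset (Equiv.Perm (Fin k)))
    (g : Equiv.Perm (Fin k) → (Fin d → ℤ) ≃+ (Fin d → ℤ)) (m : (Fin d → ℤ) →+ ℝ) : Prop :=
  ∀ a ∈ G, (∀ z, m (g a z) = m z) ∨ ∀ z, m (g a z) = -m z

end Vale.Agent.P147.Cond
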