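import Mathlib

/-!
P147: random walk in an iid random environment on `ℤ^d` with an arbitrary finite step set.
-/

open MeasureTheory Filter Finset
open scoped ENNReal

namespace Vale.Agent.P147.Cond

/-- Position after `n` steps of a walk with step set `v`, started at the origin. -/
def pos {d k : ℕ} (v : Fin k → Fin d → ℤ) (t : ℕ → Fin k) (n : ℕ) : Fin d → ℤ :=
  ∑ i ∈ range n, v (t i)

/-- `P` is the annealed law of the step sequence: the first `n` steps equal `s` with probability
the average, over iid rows with law `μ`, of the product of the quenched step probabilities. -/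
def IsAnnealedLaw {d k : ℕ} (μ : Measure (stdSimplex ℝ (Fin k))) (v : Fin k → Fin d → ℤ)
    (P : Measure (ℕ → Fin k)) : Prop :=
  ∀ (n : ℕ) (s : ℕ → Fin k), P {t | ∀ i < n, t i = s i} =
    ∫⁻ ω, ∏ i ∈ range n, ENNReal.ofReal ((ω (pos v s i)).1 (s i))
      ∂Measure.infinitePi (fun _ : Fin d → ℤ => μ)

/-- The event of escape in direction `l`. -/
def Escape {d k : ℕ} (v : Fin k → Fin d → ℤ) (l : Fin d → ℝ) : Set (ℕ → Fin k) :=
  {t | Tendsto (fun n => ∑ j, l j * (pos v t n j : ℝ)) atTop atTop}

end Vale.Agent.P147.Cond
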