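import Vale.Agent.P147.Cond.Symmetric

/-!
P147: uniqueness of the annealed law and the isotropic case.
-/

open MeasureTheory Filter Finset
open scoped ENNReal

namespace Vale.Agent.P147.Cond

variable {d k : ℕ} [NeZero k] (v : Fin k → Site d) (μ : Measure (Row k)) [IsProbabilityMeasure μ]

theorem law_unique {P : Measure (ℕ → Fin k)} [IsProbabilityMeasure P] (hP : IsAnnealedLaw μ v P) :
    P = law v μ := by
  classical
  refine ext_of_generate_finite _ generateFrom_measurableCylinders.symm
    isPiSystem_measurableCylinders (fun C hC => ?_) (by simp)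
  obtain ⟨S, S', -, rfl⟩ := (mem_measurableCylinders _).1 hC
  set N := S.sup id + 1
  have hdep : ∀ t t' : ℕ → Fin k, (∀ i < N, t i = t' i) →
      t ∈ cylinder S S' → t' ∈ cylinder S S' := fun t t' h ht' => by
    have : S.restrict t = S.restrict t' := funext fun i => h i
      (Nat.lt_succ_of_le (le_sup (f := id) i.2))
    rw [mem_cylinder] at ht' ⊢
    rwa [← this]
  rw [← Set.inter_univ (cylinder S S' : Set (ℕ → Fin k)), sum_prefix P N hdep MeasurableSet.univ,
    sum_prefix (law v μ) N hdep MeasurableSet.univ]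
  simp only [Set.inter_univ]
  refine sum_congr rfl fun w _ => ?_
  rw [hP N (ext' w), law_prefix]
  rfl

omit [NeZero k] in
theorem decompose_site (z : Site d) : z = ∑ j, z j • Pi.single j (1 : ℤ) := by
  funext i
  simp [Finset.sum_apply, Pi.single_apply]

/-- Sign change of one coordinate. -/
def flipAt (j : Fin d) : Site d ≃+ Site d where
  toFun z := Function.update z j (-z j)
  invFun z := Function.update z j (-z j)
  left_inv z := by funext i; by_cases h : i = j <;> simp [h]
  right_inv z := by funext i; by_cases h : i = j <;> simp [h]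
  map_add' a b := by funext i; by_cases h : i = j <;> simp [h, add_comm]

/-- Exchange of two coordinates. -/
def swapAt (a b : Fin d) : Site d ≃+ Site d where
  toFun z := z ∘ Equiv.swap a b
  invFun z := z ∘ Equiv.swap a b
  left_inv z := by funext i; simp
  right_inv z := by funext i; simp
  map_add' _ _ := rfl

theorem flipAt_single (j i : Fin d) (s : ℤ) :
    flipAt j (Pi.single i s) = Pi.single i (if i = j then -s else s) := by
  funext l
  show Function.update (Pi.single i s : Site d) j (-(Pi.single i s : Site d) j) l = _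
  by_cases h1 : l = j <;> by_cases h2 : i = j <;> simp_all [Pi.single_apply]
  all_goals (split_ifs <;> simp_all)

theorem swapAt_single (a b i : Fin d) (s : ℤ) :
    swapAt a b (Pi.single i s) = Pi.single (Equiv.swap a b i) s := by
  funext l
  show (Pi.single i s : Site d) (Equiv.swap a b l) = _
  simp [Pi.single_apply, Equiv.swap_apply_eq_iff]

theorem no_escape_isotropic (hd : 2 ≤ d) (hinj : Function.Injective v)
    (hrange : Set.range v = {z | ∃ (j : Fin d) (s : ℤ), (s = 1 ∨ s = -1) ∧ z = Pi.single j s})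
    (hpos : ∀ i, ∀ᵐ p ∂μ, 0 < p.1 i)
    (hiso : ∀ (π : Equiv.Perm (Fin k)) (g : Site d ≃+ Site d), (∀ i, v (π i) = g (v i)) →
      μ.map (fun p : Row k => (p.1 ∘ π)) = μ.map Subtype.val)
    (f : Site d →+ ℝ) : law v μ (up v f) = 0 := by
  classical
  set G : Finset (Equiv.Perm (Fin k)) :=
    univ.filter fun π => ∃ g : Site d ≃+ Site d, ∀ i, v (π i) = g (v i)
  set g : Equiv.Perm (Fin k) → Site d ≃+ Site d := fun π =>
    if h : ∃ g : Site d ≃+ Site d, ∀ i, v (π i) = g (v i) then h.choose else AddEquiv.refl _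
  have hgv : ∀ π ∈ G, ∀ i, v (π i) = g π (v i) := fun π hπ => by
    have h := (mem_filter.1 hπ).2
    simp only [g, dif_pos h]
    exact h.choose_spec
  have hone : ∀ j : Fin d, ∃ i, v i = Pi.single j (1 : ℤ) := fun j => by
    have : Pi.single j (1 : ℤ) ∈ Set.range v := by rw [hrange]; exact ⟨j, 1, Or.inl rfl, rfl⟩
    exact this
  have hext : ∀ g1 g2 : Site d → Site d, (∀ a b, g1 (a + b) = g1 a + g1 b) →
      (∀ a b, g2 (a + b) = g2 a + g2 b) → (∀ i, g1 (v i) = g2 (v i)) → ∀ z, g1 z = g2 z := by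
    intro g1 g2 h1 h2 h z
    let F1 : Site d →+ Site d := AddMonoidHom.mk' g1 h1
    let F2 : Site d →+ Site d := AddMonoidHom.mk' g2 h2
    show F1 z = F2 z
    rw [decompose_site z, map_sum, map_sum]
    refine sum_congr rfl fun j _ => ?_
    obtain ⟨i, hi⟩ := hone j
    rw [map_zsmul, map_zsmul, ← hi]
    exact congrArg _ (h i)
  have hG : ∀ a ∈ G, ∀ b ∈ G, a * b ∈ G := fun a ha b hb =>
    mem_filter.2 ⟨mem_univ _, (g b).trans (g a), fun i => by
      simp [hgv a ha, hgv b hb]⟩
  have hmk : ∀ q : Site d ≃+ Site d, (∀ i, ∃ i', v i' = q (v i)) →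
      ∃ π ∈ G, ∀ z, g π z = q z := by
    intro q hq
    choose p hp using hq
    have hpi : Function.Injective p := fun a b h => hinj (q.injective (by rw [← hp, ← hp, h]))
    set π := Equiv.ofBijective p (Finite.injective_iff_bijective.1 hpi)
    have hπ : π ∈ G := mem_filter.2 ⟨mem_univ _, q, hp⟩
    refine ⟨π, hπ, hext _ _ (map_add _) (map_add _) fun i => ?_⟩
    rw [← hgv π hπ i]
    exact hp i
  refine no_escape_of_symmetry v μ hpos G ⟨1, mem_filter.2 ⟨mem_univ _, AddEquiv.refl _,
    fun i => rfl⟩⟩ hG g hgv (fun a ha b hb => hext _ _ (map_add _) (fun x y => by simp)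
      fun i => by rw [← hgv _ (hG a ha b hb) i, ← hgv b hb i, ← hgv a ha (b i)]; rfl)
    (fun a ha => hiso a (g a) (hgv a ha)) (fun m hm => ?_) f
  have hstep : ∀ (j : Fin d) (s : ℤ), s = 1 ∨ s = -1 → ∃ i, v i = Pi.single j s := fun j s hs => by
    have : Pi.single j s ∈ Set.range v := by rw [hrange]; exact ⟨j, s, hs, rfl⟩
    exact this
  have hmem : ∀ i, ∃ (j : Fin d) (s : ℤ), (s = 1 ∨ s = -1) ∧ v i = Pi.single j s := fun i => by
    have : v i ∈ Set.range v := ⟨i, rfl⟩
    rwa [hrange] at this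
  have hflip : ∀ j, (∀ z, m (flipAt j z) = m z) ∨ ∀ z, m (flipAt j z) = -m z := by
    intro j
    obtain ⟨π, hπ, he⟩ := hmk (flipAt j) fun i => by
      obtain ⟨l, s, hs, h⟩ := hmem i
      rw [h, flipAt_single]
      exact hstep _ _ (by split_ifs <;> omega)
    simpa [he] using hm π hπ
  have hswap : ∀ a b, (∀ z, m (swapAt a b z) = m z) ∨ ∀ z, m (swapAt a b z) = -m z := by
    intro a b
    obtain ⟨π, hπ, he⟩ := hmk (swapAt a b) fun i => by
      obtain ⟨l, s, hs, h⟩ := hmem i
      rw [h, swapAt_single]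
      exact hstep _ _ hs
    simpa [he] using hm π hπ
  have hzero : ∀ j, m (Pi.single j (1 : ℤ)) = 0 := by
    by_contra hne
    push Not at hne
    obtain ⟨j, hj⟩ := hne
    have : Nontrivial (Fin d) := Fin.nontrivial_iff_two_le.2 hd
    obtain ⟨i, hij⟩ := exists_ne j
    have hi0 : m (Pi.single i (1 : ℤ)) = 0 := by
      rcases hflip j with h | h
      · exfalso
        have := h (Pi.single j 1)
        rw [flipAt_single, if_pos rfl, Pi.single_neg, map_neg] at this
        exact hj (by linarith)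
      · have := h (Pi.single i 1)
        rw [flipAt_single, if_neg hij] at this
        linarith
    rcases hswap i j with h | h
    all_goals
      have := h (Pi.single i 1)
      rw [swapAt_single, Equiv.swap_apply_left, hi0] at this
      exact hj (by linarith)
  refine DFunLike.ext _ _ fun z => ?_
  rw [decompose_site z, map_sum]
  exact (sum_eq_zero fun j _ => by rw [map_zsmul, hzero, smul_zero]).trans
    (AddMonoidHom.zero_apply _).symm

/-- Transverse symmetry and a drift of constant sign along the remaining axis. -/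
theorem zero_one_transverse (hd : 3 ≤ d) (a₀ : Fin d) (hinj : Function.Injective v)
    (hrange : Set.range v = {z | ∃ (j : Fin d) (s : ℤ), (s = 1 ∨ s = -1) ∧ z = Pi.single j s})
    (hpos : ∀ i, ∀ᵐ p ∂μ, 0 < p.1 i)
    (hiso : ∀ (π : Equiv.Perm (Fin k)) (g : Site d ≃+ Site d), (∀ i, v (π i) = g (v i)) →
      (∀ z, g z a₀ = z a₀) → μ.map (fun p : Row k => (p.1 ∘ π)) = μ.map Subtype.val)
    (hdr : ∀ᵐ p ∂μ, 0 ≤ ∑ i, (p.1 i : ℝ) * (v i a₀ : ℝ))
    (f : Site d →+ ℝ) : law v μ (up v f) = 0 ∨ law v μ (up v f) = 1 := by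
  classical
  set G : Finset (Equiv.Perm (Fin k)) :=
    univ.filter fun π => ∃ g : Site d ≃+ Site d, (∀ i, v (π i) = g (v i)) ∧ ∀ z, g z a₀ = z a₀
  set g : Equiv.Perm (Fin k) → Site d ≃+ Site d := fun π =>
    if h : ∃ g : Site d ≃+ Site d, (∀ i, v (π i) = g (v i)) ∧ ∀ z, g z a₀ = z a₀ then h.choose else AddEquiv.refl _
  have hgv : ∀ π ∈ G, ∀ i, v (π i) = g π (v i) := fun π hπ => by
    have h := (mem_filter.1 hπ).2
    simp only [g, dif_pos h]
    exact h.choose_spec.1
  have hga : ∀ π ∈ G, ∀ z, g π z a₀ = z a₀ := fun π hπ => by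
    have h := (mem_filter.1 hπ).2
    simp only [g, dif_pos h]
    exact h.choose_spec.2
  have hone : ∀ j : Fin d, ∃ i, v i = Pi.single j (1 : ℤ) := fun j => by
    have : Pi.single j (1 : ℤ) ∈ Set.range v := by rw [hrange]; exact ⟨j, 1, Or.inl rfl, rfl⟩
    exact this
  have hext : ∀ g1 g2 : Site d → Site d, (∀ a b, g1 (a + b) = g1 a + g1 b) →
      (∀ a b, g2 (a + b) = g2 a + g2 b) → (∀ i, g1 (v i) = g2 (v i)) → ∀ z, g1 z = g2 z := by
    intro g1 g2 h1 h2 h z
    let F1 : Site d →+ Site d := AddMonoidHom.mk' g1 h1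
    let F2 : Site d →+ Site d := AddMonoidHom.mk' g2 h2
    show F1 z = F2 z
    rw [decompose_site z, map_sum, map_sum]
    refine sum_congr rfl fun j _ => ?_
    obtain ⟨i, hi⟩ := hone j
    rw [map_zsmul, map_zsmul, ← hi]
    exact congrArg _ (h i)
  have hG : ∀ a ∈ G, ∀ b ∈ G, a * b ∈ G := fun a ha b hb =>
    mem_filter.2 ⟨mem_univ _, (g b).trans (g a), fun i => by
      simp [hgv a ha, hgv b hb], fun z => by simp [hga a ha, hga b hb]⟩
  have hmk : ∀ q : Site d ≃+ Site d, (∀ z, q z a₀ = z a₀) → (∀ i, ∃ i', v i' = q (v i)) →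
      ∃ π ∈ G, ∀ z, g π z = q z := by
    intro q hqa hq
    choose p hp using hq
    have hpi : Function.Injective p := fun a b h => hinj (q.injective (by rw [← hp, ← hp, h]))
    set π := Equiv.ofBijective p (Finite.injective_iff_bijective.1 hpi)
    have hπ : π ∈ G := mem_filter.2 ⟨mem_univ _, q, hp, hqa⟩
    refine ⟨π, hπ, hext _ _ (map_add _) (map_add _) fun i => ?_⟩
    rw [← hgv π hπ i]
    exact hp i
  set m0 : Site d →+ ℝ := AddMonoidHom.mk' (fun z => (z a₀ : ℝ)) (fun x y => by simp)
  refine zero_one_of_axis_drift v μ hpos G ⟨1, mem_filter.2 ⟨mem_univ _, AddEquiv.refl _,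
    fun i => rfl, fun z => rfl⟩⟩ hG g hgv (fun a ha b hb => hext _ _ (map_add _) (fun x y => by simp)
      fun i => by rw [← hgv _ (hG a ha b hb) i, ← hgv b hb i, ← hgv a ha (b i)]; rfl)
    (fun a ha => hiso a (g a) (hgv a ha) (hga a ha)) m0 (fun m hm => ?_) hdr f
  have hstep : ∀ (j : Fin d) (s : ℤ), s = 1 ∨ s = -1 → ∃ i, v i = Pi.single j s := fun j s hs => by
    have : Pi.single j s ∈ Set.range v := by rw [hrange]; exact ⟨j, s, hs, rfl⟩
    exact this
  have hmem : ∀ i, ∃ (j : Fin d) (s : ℤ), (s = 1 ∨ s = -1) ∧ v i = Pi.single j s := fun i => by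
    have : v i ∈ Set.range v := ⟨i, rfl⟩
    rwa [hrange] at this
  have hflip : ∀ j, j ≠ a₀ →
      (∀ z, m (flipAt j z) = m z) ∨ ∀ z, m (flipAt j z) = -m z := by
    intro j hja
    obtain ⟨π, hπ, he⟩ := hmk (flipAt j)
      (fun z => Function.update_of_ne hja.symm _ _) fun i => by
      obtain ⟨l, s, hs, h⟩ := hmem i
      rw [h, flipAt_single]
      exact hstep _ _ (by split_ifs <;> omega)
    simpa [he] using hm π hπ
  have hswap : ∀ a b, a ≠ a₀ → b ≠ a₀ →
      (∀ z, m (swapAt a b z) = m z) ∨ ∀ z, m (swapAt a b z) = -m z := by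
    intro a b ha hb
    obtain ⟨π, hπ, he⟩ := hmk (swapAt a b)
      (fun z => congrArg z (Equiv.swap_apply_of_ne_of_ne ha.symm hb.symm)) fun i => by
      obtain ⟨l, s, hs, h⟩ := hmem i
      rw [h, swapAt_single]
      exact hstep _ _ hs
    simpa [he] using hm π hπ
  have hzero : ∀ j, j ≠ a₀ → m (Pi.single j (1 : ℤ)) = 0 := by
    by_contra hne
    push Not at hne
    obtain ⟨j, hja, hj⟩ := hne
    obtain ⟨i, hij, hia⟩ : ∃ i, i ≠ j ∧ i ≠ a₀ := by
      by_contra hc
      push Not at hc
      have : (univ : Finset (Fin d)) ⊆ {j, a₀} := fun i _ => by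
        by_cases h : i = j
        · simp [h]
        · simp [hc i h]
      have := card_le_card this
      rw [card_univ, Fintype.card_fin] at this
      linarith [card_le_two (a := j) (b := a₀)]
    have hi0 : m (Pi.single i (1 : ℤ)) = 0 := by
      rcases hflip j hja with h | h
      · exfalso
        have := h (Pi.single j 1)
        rw [flipAt_single, if_pos rfl, Pi.single_neg, map_neg] at this
        exact hj (by linarith)
      · have := h (Pi.single i 1)
        rw [flipAt_single, if_neg hij] at this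
        linarith
    rcases hswap i j hia hja with h | h
    all_goals
      have := h (Pi.single i 1)
      rw [swapAt_single, Equiv.swap_apply_left, hi0] at this
      exact hj (by linarith)
  refine ⟨m (Pi.single a₀ 1), fun z => ?_⟩
  conv_lhs => rw [decompose_site z, map_sum]
  rw [sum_eq_single a₀ (fun j _ hja => by rw [map_zsmul, hzero j hja, smul_zero])
    (by simp), map_zsmul, zsmul_eq_mul]
  show _ = _ * (z a₀ : ℝ)
  ring

end Vale.Agent.P147.Cond
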