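import Vale.Agent.P147.Cond.Defs

/-!
P147: the annealed law, its translation invariance and the renewal identity at record times.
-/

open MeasureTheory Filter Finset
open scoped ENNReal

namespace Vale.Agent.P147.Cond

variable {d k : ℕ} [NeZero k]

abbrev Site (d : ℕ) := Fin d → ℤ
abbrev Row (k : ℕ) : Type := ↥(stdSimplex ℝ (Fin k))

/-- Upper end of the `i`-th interval of a row. -/
def cum (p : Row k) (i : Fin k) : ℝ := ∑ j ∈ Finset.Iic i, p.1 j

noncomputable def choice (b : Fin k → Bool) : Fin k :=
  if h : (univ.filter fun i => b i = true).Nonempty then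
    (univ.filter fun i => b i = true).min' h else 0

/-- Inverse distribution function of a row. -/
noncomputable def pick (p : Row k) (u : ℝ) : Fin k := choice fun i => decide (u < cum p i)

theorem pick_eq {p : Row k} {u : ℝ} {i : Fin k} (h1 : cum p i - p.1 i ≤ u) (h2 : u < cum p i) :
    pick p u = i := by
  have hne : (univ.filter fun j => decide (u < cum p j) = true).Nonempty := ⟨i, by simp [h2]⟩
  rw [pick, choice, dif_pos hne]
  refine le_antisymm (min'_le _ _ (by simp [h2])) (le_min' _ _ _ fun j hj => ?_)
  simp only [mem_filter, mem_univ, true_and, decide_eq_true_eq] at hj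
  by_contra hlt
  rw [not_le] at hlt
  have hsub : Finset.Iic j ⊆ (Finset.Iic i).erase i := fun x hx => by
    rw [Finset.mem_Iic] at hx
    simp only [mem_erase, Finset.mem_Iic]
    exact ⟨(hx.trans_lt hlt).ne, (hx.trans hlt.le)⟩
  have := sum_le_sum_of_subset_of_nonneg hsub (f := p.1) fun x _ _ => p.2.1 x
  rw [sum_erase_eq_sub (by simp)] at this
  exact absurd (hj.trans_le (this.trans h1)) (lt_irrefl _)

theorem measurable_pick : Measurable (fun x : Row k × ℝ => pick x.1 x.2) := by
  refine (measurable_of_finite choice).comp (measurable_pi_lambda _ fun i => ?_)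
  refine measurable_to_bool ?_
  have hc : Measurable fun x : Row k × ℝ => cum x.1 i := by
    simp only [cum]
    exact Finset.measurable_sum _ fun j _ =>
      (measurable_pi_apply j).comp (measurable_subtype_coe.comp measurable_fst)
  convert measurableSet_lt measurable_snd hc using 1
  ext x
  simp

/-- Uniform law on `[0, 1)`. -/
noncomputable def unif : Measure ℝ := volume.restrict (Set.Ico 0 1)

instance : IsProbabilityMeasure unif := ⟨by simp [unif]⟩

theorem unif_pick (p : Row k) (i : Fin k) :
    unif {u | pick p u = i} = ENNReal.ofReal (p.1 i) := by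
  have hm : ∀ j, MeasurableSet {u | pick p u = j} := fun j =>
    (measurable_pick.comp (measurable_const.prodMk measurable_id)) (measurableSet_singleton j)
  have hle : ∀ j, ENNReal.ofReal (p.1 j) ≤ unif {u | pick p u = j} := fun j => by
    have hlo : 0 ≤ cum p j - p.1 j := by
      rw [cum, ← sum_erase_eq_sub (by simp)]
      exact sum_nonneg fun x _ => p.2.1 x
    have hhi : cum p j ≤ 1 := by
      rw [cum, ← p.2.2]
      exact sum_le_sum_of_subset_of_nonneg (subset_univ _) fun x _ _ => p.2.1 x
    calc ENNReal.ofReal (p.1 j) = unif (Set.Ico (cum p j - p.1 j) (cum p j)) := by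
          rw [unif, Measure.restrict_eq_self _ (Set.Ico_subset_Ico hlo hhi), Real.volume_Ico]
          congr 1; ring
      _ ≤ _ := measure_mono fun u hu => pick_eq hu.1 hu.2
  refine le_antisymm ?_ (hle i)
  have htot : ∑ j, unif {u | pick p u = j} = 1 := by
    rw [← measure_biUnion_finset (fun a _ b _ hab => Set.disjoint_left.2 fun u ha hb =>
      hab (ha.symm.trans hb)) fun j _ => hm j]
    convert measure_univ (μ := unif) using 2
    ext u; simp
  have hp : ∑ j, ENNReal.ofReal (p.1 j) = 1 := by
    rw [← ENNReal.ofReal_sum_of_nonneg fun j _ => p.2.1 j, p.2.2, ENNReal.ofReal_one]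
  rw [← add_sum_erase _ _ (mem_univ i)] at htot hp
  refine ENNReal.le_of_add_le_add_right (a := ∑ j ∈ univ.erase i, ENNReal.ofReal (p.1 j)) ?_ ?_
  · exact ne_top_of_le_ne_top ENNReal.one_ne_top (hp ▸ le_add_self)
  · rw [hp, ← htot]
    exact add_le_add le_rfl (sum_le_sum fun j _ => hle j)

variable (v : Fin k → Site d)

/-- Quenched walk driven by uniforms. -/
noncomputable def walk (ω : Site d → Row k) (u : ℕ → ℝ) : ℕ → Site d
  | 0 => 0
  | n + 1 => walk ω u n + v (pick (ω (walk ω u n)) (u n))

noncomputable def steps (ω : Site d → Row k) (u : ℕ → ℝ) (n : ℕ) : Fin k :=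
  pick (ω (walk v ω u n)) (u n)

theorem pos_steps (ω : Site d → Row k) (u : ℕ → ℝ) (n : ℕ) :
    pos v (steps v ω u) n = walk v ω u n := by
  induction n with
  | zero => simp [pos, walk]
  | succ n ih => rw [pos, sum_range_succ, ← pos, ih]; rfl

theorem pos_add (t : ℕ → Fin k) (n m : ℕ) :
    pos v t (n + m) = pos v t n + pos v (fun i => t (n + i)) m := by
  simp only [pos, sum_range_add]

theorem walk_add (ω : Site d → Row k) (u : ℕ → ℝ) (n m : ℕ) :
    walk v ω u (n + m) =
      walk v ω u n + walk v (fun z => ω (walk v ω u n + z)) (fun i => u (n + i)) m := by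
  induction m with
  | zero => simp [walk]
  | succ m ih =>
    show walk v ω u (n + m) + v (pick (ω (walk v ω u (n + m))) (u (n + m))) = _
    rw [ih, add_assoc]
    rfl

theorem steps_add (ω : Site d → Row k) (u : ℕ → ℝ) (n m : ℕ) :
    steps v ω u (n + m) =
      steps v (fun z => ω (walk v ω u n + z)) (fun i => u (n + i)) m := by
  simp only [steps, walk_add]

theorem prefix_iff (ω : Site d → Row k) (u : ℕ → ℝ) (s : ℕ → Fin k) (n : ℕ) :
    (∀ i < n, steps v ω u i = s i) ↔ ∀ i < n, pick (ω (pos v s i)) (u i) = s i := by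
  induction n with
  | zero => simp
  | succ n ih =>
    simp only [Nat.forall_lt_succ_right]
    constructor
    · rintro ⟨h, hn⟩
      refine ⟨ih.1 h, ?_⟩
      have : pos v s n = walk v ω u n := by
        rw [← pos_steps]; exact sum_congr rfl fun i hi => by rw [h i (mem_range.1 hi)]
      rw [this]; exact hn
    · rintro ⟨h, hn⟩
      refine ⟨ih.2 h, ?_⟩
      have : pos v s n = walk v ω u n := by
        rw [← pos_steps]; exact sum_congr rfl fun i hi => by rw [(ih.2 h) i (mem_range.1 hi)]
      rw [this] at hn; exact hn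

theorem measurable_steps :
    Measurable (fun x : (Site d → Row k) × (ℕ → ℝ) => steps v x.1 x.2) := by
  have hev : Measurable fun y : (Site d → Row k) × Site d => y.1 y.2 :=
    measurable_from_prod_countable_left fun z => measurable_pi_apply z
  have hp : ∀ (w : (Site d → Row k) × (ℕ → ℝ) → Site d) (n : ℕ), Measurable w →
      Measurable fun x : (Site d → Row k) × (ℕ → ℝ) => pick (x.1 (w x)) (x.2 n) := fun w n hw => by
    have h1 : Measurable fun x : (Site d → Row k) × (ℕ → ℝ) => x.1 (w x) :=
      Measurable.comp (g := fun y : (Site d → Row k) × Site d => y.1 y.2)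
        (f := fun x : (Site d → Row k) × (ℕ → ℝ) => (x.1, w x)) hev (measurable_fst.prodMk hw)
    have h2 : Measurable fun x : (Site d → Row k) × (ℕ → ℝ) => x.2 n :=
      (measurable_pi_apply n).comp measurable_snd
    exact Measurable.comp (g := fun y : Row k × ℝ => pick y.1 y.2)
      (f := fun x : (Site d → Row k) × (ℕ → ℝ) => (x.1 (w x), x.2 n)) measurable_pick (h1.prodMk h2)
  have hw : ∀ n, Measurable fun x : (Site d → Row k) × (ℕ → ℝ) => walk v x.1 x.2 n := by
    intro n
    induction n with
    | zero => exact measurable_const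
    | succ n ih =>
      have h3 : Measurable fun x : (Site d → Row k) × (ℕ → ℝ) =>
          v (pick (x.1 (walk v x.1 x.2 n)) (x.2 n)) :=
        Measurable.comp (g := v) (measurable_of_finite v) (hp _ n ih)
      simp only [walk]
      exact ih.add h3
  exact measurable_pi_lambda _ fun n => hp _ n (hw n)

noncomputable abbrev uLaw : Measure (ℕ → ℝ) := Measure.infinitePi fun _ => unif

/-- Quenched probability of an event. -/
noncomputable def quenched (ω : Site d → Row k) (B : Set (ℕ → Fin k)) : ℝ≥0∞ :=
  uLaw {u | steps v ω u ∈ B}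

theorem measurable_quenched {B : Set (ℕ → Fin k)} (hB : MeasurableSet B) :
    Measurable fun ω => quenched v ω B :=
  measurable_measure_prodMk_left (ν := uLaw) (measurable_steps v hB)

/-- The probability of a prefix, given the environment. -/
noncomputable def weight (s : ℕ → Fin k) (n : ℕ) (ω : Site d → Row k) : ℝ≥0∞ :=
  ∏ i ∈ range n, ENNReal.ofReal ((ω (pos v s i)).1 (s i))

theorem weight_le_one (s : ℕ → Fin k) (n : ℕ) (ω : Site d → Row k) : weight v s n ω ≤ 1 :=
  prod_le_one' fun i _ => by
    rw [← ENNReal.ofReal_one]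
    refine ENNReal.ofReal_le_ofReal ?_
    rw [← (ω (pos v s i)).2.2]
    exact single_le_sum (fun j _ => (ω (pos v s i)).2.1 j) (mem_univ _)

theorem measurable_weight (s : ℕ → Fin k) (n : ℕ) : Measurable (weight v s n) := by
  refine Finset.measurable_prod _ fun i _ => ENNReal.measurable_ofReal.comp ?_
  exact (measurable_pi_apply (s i)).comp (measurable_subtype_coe.comp (measurable_pi_apply _))

theorem uLaw_prefix_inter {n : ℕ} (t : ℕ → Set ℝ) (ht : ∀ i, MeasurableSet (t i))
    {C : Set (ℕ → ℝ)} (hC : MeasurableSet C) :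
    uLaw ({u | ∀ i < n, u i ∈ t i} ∩ {u | (fun i => u (n + i)) ∈ C}) =
      (∏ i ∈ range n, unif (t i)) * uLaw C := by
  set c := ∏ i ∈ range n, unif (t i) with hc
  set Q := {u : ℕ → ℝ | ∀ i < n, u i ∈ t i}
  have hQ : Q = Set.pi (range n : Finset ℕ) t := by ext u; simp [Q, Set.pi]
  have hQc : uLaw Q = c := by rw [hQ, Measure.infinitePi_pi _ fun i _ => ht i]
  have hsh : Measurable fun (u : ℕ → ℝ) (i : ℕ) => u (n + i) :=
    measurable_pi_lambda _ fun i => measurable_pi_apply _
  rcases eq_or_ne c 0 with h0 | h0
  · rw [h0, zero_mul]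
    exact measure_mono_null Set.inter_subset_left (hQc.trans h0)
  have htop : c ≠ ∞ := by rw [← hQc]; exact measure_ne_top _ _
  have key : c⁻¹ • (uLaw.restrict Q).map (fun u i => u (n + i)) = uLaw := by
    refine Measure.eq_infinitePi _ fun S t' ht' => ?_
    rw [Measure.smul_apply, Measure.map_apply hsh (.pi S.countable_toSet fun i _ => ht' i),
      Measure.restrict_apply (hsh (.pi S.countable_toSet fun i _ => ht' i)), smul_eq_mul]
    have : (fun (u : ℕ → ℝ) i => u (n + i)) ⁻¹' Set.pi S t' ∩ Q =
        Set.pi ((range n ∪ S.image (n + ·) : Finset ℕ) : Set ℕ)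
          (fun i => if i < n then t i else t' (i - n)) := by
      ext u
      simp only [Q, Set.mem_inter_iff, Set.mem_preimage, Set.mem_pi, mem_coe, mem_union, mem_range,
        mem_image]
      constructor
      · rintro ⟨h1, h2⟩ i (hi | ⟨j, hj, rfl⟩)
        · rw [if_pos hi]; exact h2 i hi
        · rw [if_neg (by omega), Nat.add_sub_cancel_left]; exact h1 j hj
      · intro h
        refine ⟨fun j hj => ?_, fun i hi => ?_⟩
        · have := h (n + j) (Or.inr ⟨j, hj, rfl⟩)
          rwa [if_neg (by omega), Nat.add_sub_cancel_left] at this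
        · have := h i (Or.inl hi)
          rwa [if_pos hi] at this
    rw [this, Measure.infinitePi_pi _ fun i _ => by split_ifs; exacts [ht i, ht' _],
      prod_union, prod_image (fun a _ b _ h => by simpa using h)]
    · have e1 : ∏ i ∈ range n, unif (if i < n then t i else t' (i - n)) = c :=
        prod_congr rfl fun i hi => by rw [if_pos (mem_range.1 hi)]
      have e2 : ∏ i ∈ S, unif (if n + i < n then t (n + i) else t' (n + i - n)) =
          ∏ i ∈ S, unif (t' i) :=
        prod_congr rfl fun i _ => by rw [if_neg (by omega), Nat.add_sub_cancel_left]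
      rw [e1, e2, ← mul_assoc, ENNReal.inv_mul_cancel h0 htop, one_mul]
    · simp only [disjoint_left, mem_range, mem_image]
      rintro a ha ⟨b, _, rfl⟩
      omega
  have := congrArg (fun m : Measure (ℕ → ℝ) => c * m C) key
  simp only [Measure.smul_apply, smul_eq_mul, ← mul_assoc, ENNReal.mul_inv_cancel h0 htop,
    one_mul, Measure.map_apply hsh hC, Measure.restrict_apply (hsh hC)] at this
  rw [← this, Set.inter_comm]
  rfl

/-- Quenched Markov property at time `n`. -/
theorem quenched_prefix (ω : Site d → Row k) (s : ℕ → Fin k) (n : ℕ) {B : Set (ℕ → Fin k)}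
    (hB : MeasurableSet B) :
    quenched v ω {t | (∀ i < n, t i = s i) ∧ (fun i => t (n + i)) ∈ B} =
      weight v s n ω * quenched v (fun z => ω (pos v s n + z)) B := by
  set C := {u : ℕ → ℝ | steps v (fun z => ω (pos v s n + z)) u ∈ B}
  have hC : MeasurableSet C := by
    exact Measurable.comp (g := fun y : (Site d → Row k) × (ℕ → ℝ) => steps v y.1 y.2)
      (f := fun u : ℕ → ℝ => ((fun z => ω (pos v s n + z)), u)) (measurable_steps v)
      (measurable_const.prodMk measurable_id) hB
  have hset : {u : ℕ → ℝ | steps v ω u ∈ {t | (∀ i < n, t i = s i) ∧ (fun i => t (n + i)) ∈ B}} =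
      {u | ∀ i < n, u i ∈ {r | pick (ω (pos v s i)) r = s i}} ∩
        {u | (fun i => u (n + i)) ∈ C} := by
    ext u
    simp only [Set.mem_setOf_eq, Set.mem_inter_iff, ← prefix_iff, C]
    refine and_congr_right fun h => ?_
    have : pos v s n = walk v ω u n := by
      rw [← pos_steps]; exact sum_congr rfl fun i hi => by rw [h i (mem_range.1 hi)]
    rw [this, funext (steps_add v ω u n)]
  rw [quenched, hset, uLaw_prefix_inter _ (fun i => ?_) hC]
  · simp only [weight, unif_pick]
    rfl
  · exact Measurable.comp (g := fun y : Row k × ℝ => pick y.1 y.2)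
      (f := fun r : ℝ => (ω (pos v s i), r)) measurable_pick
      (measurable_const.prodMk measurable_id) (measurableSet_singleton (s i))

variable (μ : Measure (Row k))

noncomputable abbrev envLaw : Measure (Site d → Row k) := Measure.infinitePi fun _ : Site d => μ

noncomputable def law : Measure (ℕ → Fin k) :=
  ((envLaw (d := d) μ).prod uLaw).map fun x => steps v x.1 x.2

variable [IsProbabilityMeasure μ]

instance : IsProbabilityMeasure (law v μ) :=
  Measure.isProbabilityMeasure_map (measurable_steps v).aemeasurable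

theorem law_apply {B : Set (ℕ → Fin k)} (hB : MeasurableSet B) :
    law v μ B = ∫⁻ ω, quenched v ω B ∂envLaw μ := by
  rw [law, Measure.map_apply (measurable_steps v) hB,
    Measure.prod_apply (measurable_steps v hB)]
  rfl

theorem map_shift_env (x : Site d) :
    (envLaw (d := d) μ).map (fun ω z => ω (x + z)) = envLaw μ := by
  refine Measure.eq_infinitePi _ fun S t ht => ?_
  have hms : Measurable fun (ω : Site d → Row k) z => ω (x + z) :=
    measurable_pi_lambda _ fun z => measurable_pi_apply _
  rw [Measure.map_apply hms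
    (.pi S.countable_toSet fun i _ => ht i)]
  have : (fun (ω : Site d → Row k) z => ω (x + z)) ⁻¹' Set.pi S t =
      Set.pi ((S.image (x + ·) : Finset (Site d)) : Set (Site d)) (fun y => t (y - x)) := by
    ext ω
    simp only [Set.mem_preimage, Set.mem_pi, mem_coe, mem_image]
    refine ⟨?_, fun h z hz => ?_⟩
    · rintro h y ⟨z, hz, rfl⟩
      simpa using h z hz
    · simpa using h (x + z) ⟨z, hz, rfl⟩
  rw [this, Measure.infinitePi_pi _ fun i _ => ht _,
    prod_image (fun a _ b _ h => by simpa using h)]
  simp

theorem lintegral_quenched_shift (x : Site d) {B : Set (ℕ → Fin k)} (hB : MeasurableSet B) :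
    ∫⁻ ω, quenched v (fun z => ω (x + z)) B ∂envLaw μ = law v μ B := by
  have hms : Measurable fun (ω : Site d → Row k) z => ω (x + z) :=
    measurable_pi_lambda _ fun z => measurable_pi_apply _
  rw [law_apply v μ hB]
  calc _ = ∫⁻ ω, quenched v ω B ∂((envLaw μ).map fun ω z => ω (x + z)) :=
        (lintegral_map (measurable_quenched v hB) hms).symm
    _ = _ := by rw [map_shift_env]

theorem measurableSet_prefix_inter (n : ℕ) (s : ℕ → Fin k) {B : Set (ℕ → Fin k)}
    (hB : MeasurableSet B) :
    MeasurableSet {t : ℕ → Fin k | (∀ i < n, t i = s i) ∧ (fun i => t (n + i)) ∈ B} := by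
  refine MeasurableSet.inter ?_ ?_
  · have h' : ∀ i, MeasurableSet ((fun t : ℕ → Fin k => t i) ⁻¹' {s i}) := fun i =>
      measurable_pi_apply i (measurableSet_singleton (s i))
    show MeasurableSet {t : ℕ → Fin k | ∀ i < n, t i = s i}
    simp only [Set.setOf_forall]
    exact .iInter fun i => .iInter fun _ => h' i
  · exact (measurable_pi_lambda _ fun i => measurable_pi_apply (n + i)) hB

theorem law_prefix (n : ℕ) (s : ℕ → Fin k) :
    law v μ {t | ∀ i < n, t i = s i} = ∫⁻ ω, weight v s n ω ∂envLaw μ := by
  have hset : {t : ℕ → Fin k | ∀ i < n, t i = s i} =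
      {t | (∀ i < n, t i = s i) ∧ (fun i => t (n + i)) ∈ (Set.univ : Set (ℕ → Fin k))} := by
    ext t; simp
  rw [hset, law_apply v μ (measurableSet_prefix_inter n s MeasurableSet.univ)]
  refine lintegral_congr fun ω => ?_
  rw [quenched_prefix v ω s n MeasurableSet.univ]
  simp [quenched]

theorem law_prefix_inter_le (n : ℕ) (s : ℕ → Fin k) {B : Set (ℕ → Fin k)}
    (hB : MeasurableSet B) :
    law v μ {t | (∀ i < n, t i = s i) ∧ (fun i => t (n + i)) ∈ B} ≤ law v μ B := by
  rw [law_apply v μ (measurableSet_prefix_inter n s hB),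
    ← lintegral_quenched_shift v μ (pos v s n) hB]
  refine lintegral_mono fun ω => ?_
  rw [quenched_prefix v ω s n hB]
  exact mul_le_of_le_one_left' (weight_le_one v s n ω)

/-- Merge two environments along a set of sites. -/
noncomputable def comb (U : Set (Site d)) (a : (Site d → Row k) × (Site d → Row k)) :
    Site d → Row k := fun z => open Classical in if z ∈ U then a.1 z else a.2 z

omit [NeZero k] in
theorem measurable_comb (U : Set (Site d)) : Measurable (comb (k := k) U) :=
  measurable_pi_lambda _ fun z => by
    unfold comb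
    split_ifs
    exacts [(measurable_pi_apply z).comp measurable_fst,
      (measurable_pi_apply z).comp measurable_snd]

theorem map_comb (U : Set (Site d)) :
    ((envLaw (d := d) μ).prod (envLaw μ)).map (comb U) = envLaw μ := by
  classical
  refine Measure.eq_infinitePi _ fun S t ht => ?_
  rw [Measure.map_apply (measurable_comb U) (.pi S.countable_toSet fun i _ => ht i)]
  have : comb U ⁻¹' Set.pi S t =
      Set.pi ((S.filter (· ∈ U) : Finset (Site d)) : Set (Site d)) t ×ˢ
        Set.pi ((S.filter (· ∉ U) : Finset (Site d)) : Set (Site d)) t := by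
    ext a
    simp only [Set.mem_preimage, Set.mem_pi, mem_coe, comb, Set.mem_prod, mem_filter]
    refine ⟨fun h => ⟨fun z hz => ?_, fun z hz => ?_⟩, fun h z hz => ?_⟩
    · simpa [hz.2] using h z hz.1
    · simpa [hz.2] using h z hz.1
    · split_ifs with hU
      exacts [h.1 z ⟨hz, hU⟩, h.2 z ⟨hz, hU⟩]
  rw [this, Measure.prod_prod, Measure.infinitePi_pi _ fun i _ => ht i,
    Measure.infinitePi_pi _ fun i _ => ht i, prod_filter_mul_prod_filter_not]

variable (ht : Site d →+ ℝ)

/-- The walk never goes below its starting height. -/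
def stay : Set (ℕ → Fin k) := {t | ∀ m, 0 ≤ ht (pos v t m)}

theorem steps_congr_of_stay {ω ω' : Site d → Row k} (h : ∀ z, 0 ≤ ht z → ω z = ω' z)
    {u : ℕ → ℝ} (hu : steps v ω u ∈ stay v ht) : steps v ω u = steps v ω' u := by
  have hw : ∀ m, walk v ω u m = walk v ω' u m := fun m => by
    induction m with
    | zero => rfl
    | succ m ih =>
      have h0 : 0 ≤ ht (walk v ω u m) := by rw [← pos_steps]; exact hu m
      simp only [walk]
      rw [h _ h0, ih]
  funext m
  have h0 : 0 ≤ ht (walk v ω u m) := by rw [← pos_steps]; exact hu m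
  simp only [steps]
  rw [h _ h0, hw]

/-- Renewal at a record: an event that never backtracks is independent of the past. -/
theorem law_record {n : ℕ} {s : ℕ → Fin k}
    (hrec : ∀ j < n, ht (pos v s j) < ht (pos v s n)) {B : Set (ℕ → Fin k)}
    (hB : MeasurableSet B) (hBD : B ⊆ stay v ht) :
    law v μ {t | (∀ i < n, t i = s i) ∧ (fun i => t (n + i)) ∈ B} =
      law v μ {t | ∀ i < n, t i = s i} * law v μ B := by
  set x := pos v s n
  set U : Set (Site d) := {z | ht x ≤ ht z} with hU
  rw [law_apply v μ (measurableSet_prefix_inter n s hB), law_prefix,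
    ← lintegral_quenched_shift v μ x hB]
  have hw : ∀ a, weight v s n (comb U a) = weight v s n a.2 := fun a =>
    prod_congr rfl fun i hi => by
      have : pos v s i ∉ U := by simpa [hU] using hrec i (mem_range.1 hi)
      rw [comb, if_neg this]
  have hg : ∀ a, quenched v (fun z => comb U a (x + z)) B =
      quenched v (fun z => a.1 (x + z)) B := fun a => by
    have hz : ∀ z, 0 ≤ ht z → comb U a (x + z) = a.1 (x + z) := fun z hz => by
      have : x + z ∈ U := by simpa [hU] using hz
      rw [comb, if_pos this]
    refine congrArg uLaw (Set.ext fun u => ⟨fun hu => ?_, fun hu => ?_⟩)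
    · show steps v _ u ∈ B
      rw [← steps_congr_of_stay v ht hz (hBD hu)]
      exact hu
    · show steps v _ u ∈ B
      rw [← steps_congr_of_stay v ht (fun z h => (hz z h).symm) (hBD hu)]
      exact hu
  have hm : Measurable fun ω : Site d → Row k => quenched v (fun z => ω (x + z)) B :=
    (measurable_quenched v hB).comp (measurable_pi_lambda _ fun z => measurable_pi_apply _)
  simp only [quenched_prefix v _ s n hB]
  have hmap : ∫⁻ ω, weight v s n ω * quenched v (fun z => ω (x + z)) B ∂envLaw μ =
      ∫⁻ a, weight v s n (comb U a) * quenched v (fun z => comb U a (x + z)) B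
        ∂(envLaw μ).prod (envLaw μ) := by
    conv_lhs => rw [← map_comb μ U]
    exact lintegral_map (f := fun ω => weight v s n ω * quenched v (fun z => ω (x + z)) B)
      ((measurable_weight v s n).mul hm) (measurable_comb U)
  simp only [hw, hg] at hmap
  rw [hmap]
  rw [mul_comm (∫⁻ ω, weight v s n ω ∂_),
    ← lintegral_prod_mul hm.aemeasurable (measurable_weight v s n).aemeasurable]
  exact lintegral_congr fun a => mul_comm _ _

end Vale.Agent.P147.Cond
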