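import Vale.Agent.P147.Cond.Law

/-!
P147: conditional zero-one law on an escape event.
-/

open MeasureTheory Filter Finset
open scoped ENNReal symmDiff

namespace Vale.Agent.P147.Cond

variable {d k : ℕ} [NeZero k] (v : Fin k → Site d) (μ : Measure (Row k)) [IsProbabilityMeasure μ]
  (ht : Site d →+ ℝ)

/-- Extend a prefix to a sequence. -/
def ext' {n : ℕ} (w : Fin n → Fin k) : ℕ → Fin k := fun i => if h : i < n then w ⟨i, h⟩ else 0

theorem decompose (n : ℕ) {E : Set (ℕ → Fin k)}
    (hE : ∀ t t' : ℕ → Fin k, (∀ i < n, t i = t' i) → t ∈ E → t' ∈ E) (B : Set (ℕ → Fin k))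
    (hB : MeasurableSet B) :
    open Classical in
    law v μ (E ∩ {t | (fun i => t (n + i)) ∈ B}) =
      ∑ w : Fin n → Fin k, if ext' w ∈ E then
        law v μ {t | (∀ i < n, t i = ext' w i) ∧ (fun i => t (n + i)) ∈ B} else 0 := by
  classical
  rw [← sum_filter, ← measure_biUnion_finset ?_ fun w _ => measurableSet_prefix_inter n _ hB]
  · congr 1
    ext t
    simp only [Set.mem_inter_iff, Set.mem_setOf_eq, Set.mem_iUnion, mem_filter, mem_univ,
      true_and, exists_prop]
    constructor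
    · rintro ⟨h1, h2⟩
      refine ⟨fun i => t i, hE t _ (fun i hi => ?_) h1, fun i hi => ?_, h2⟩ <;> simp [ext', hi]
    · rintro ⟨w, h1, h2, h3⟩
      exact ⟨hE _ t (fun i hi => (h2 i hi).symm) h1, h3⟩
  · intro w _ w' _ hne
    refine Set.disjoint_left.2 fun t h h' => hne (funext fun i => ?_)
    have := (h.1 i i.2).symm.trans (h'.1 i i.2)
    simpa [ext'] using this

theorem measurableSet_of_prefix (n : ℕ) {E : Set (ℕ → Fin k)}
    (hE : ∀ t t' : ℕ → Fin k, (∀ i < n, t i = t' i) → t ∈ E → t' ∈ E) : MeasurableSet E := by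
  have : E = ⋃ (w : Fin n → Fin k) (_ : ext' w ∈ E), {t | ∀ i < n, t i = ext' w i} := by
    ext t
    simp only [Set.mem_iUnion, Set.mem_setOf_eq, exists_prop]
    refine ⟨fun h => ⟨fun i => t i, hE t _ (fun i hi => ?_) h, fun i hi => ?_⟩, ?_⟩
    · simp [ext', hi]
    · simp [ext', hi]
    · rintro ⟨w, h1, h2⟩
      exact hE _ t (fun i hi => (h2 i hi).symm) h1
  rw [this]
  refine .iUnion fun w => .iUnion fun _ => ?_
  simp only [Set.setOf_forall]
  exact .iInter fun i => .iInter fun _ => measurable_pi_apply i (measurableSet_singleton _)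

theorem law_shift_null (n : ℕ) {B : Set (ℕ → Fin k)} (hB : MeasurableSet B)
    (h0 : law v μ B = 0) : law v μ {t | (fun i => t (n + i)) ∈ B} = 0 := by
  classical
  have := decompose v μ n (E := Set.univ) (fun _ _ _ h => h) B hB
  rw [Set.univ_inter] at this
  rw [this]
  refine sum_eq_zero fun w _ => ?_
  rw [if_pos (Set.mem_univ _)]
  exact le_antisymm ((law_prefix_inter_le v μ n _ hB).trans h0.le) bot_le

/-- Strict record of the height at time `n`. -/
def Rec (n : ℕ) (t : ℕ → Fin k) : Prop := ∀ j < n, ht (pos v t j) < ht (pos v t n)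

theorem pos_congr {t t' : ℕ → Fin k} {n : ℕ} (h : ∀ i < n, t i = t' i) {j : ℕ} (hj : j ≤ n) :
    pos v t j = pos v t' j :=
  sum_congr rfl fun i hi => by rw [h i ((mem_range.1 hi).trans_le hj)]

/-- The escape event of a height. -/
def up : Set (ℕ → Fin k) := {t | Tendsto (fun n => ht (pos v t n)) atTop atTop}

theorem measurable_height (n : ℕ) : Measurable fun t : ℕ → Fin k => ht (pos v t n) := by
  simp only [pos, map_sum]
  exact Finset.measurable_sum _ fun i _ =>
    (measurable_of_finite fun a => ht (v a)).comp (measurable_pi_apply i)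

theorem measurableSet_up : MeasurableSet (up v ht) := by
  have : up v ht = ⋂ M : ℕ, ⋃ N : ℕ, ⋂ n : ℕ, ⋂ _ : N ≤ n, {t | (M : ℝ) ≤ ht (pos v t n)} := by
    ext t
    simp only [up, Set.mem_setOf_eq, Set.mem_iInter, Set.mem_iUnion, tendsto_atTop_atTop]
    refine ⟨fun h M => h M, fun h b => ?_⟩
    obtain ⟨M, hM⟩ := exists_nat_ge b
    obtain ⟨N, hN⟩ := h M
    exact ⟨N, fun n hn => hM.trans (hN n hn)⟩
  rw [this]
  exact .iInter fun _ => .iUnion fun _ => .iInter fun n => .iInter fun _ =>
    measurableSet_le measurable_const (measurable_height v ht n)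

theorem measurableSet_stay : MeasurableSet (stay v ht) := by
  simp only [stay, Set.setOf_forall]
  exact .iInter fun n => measurableSet_le measurable_const (measurable_height v ht n)

theorem shift_invariant {B : Set (ℕ → Fin k)} (hinv : ∀ t, t ∈ B ↔ (fun i => t (i + 1)) ∈ B)
    (n : ℕ) (t : ℕ → Fin k) : (fun i => t (n + i)) ∈ B ↔ t ∈ B := by
  induction n with
  | zero => simp
  | succ n ih =>
    rw [← ih, hinv fun i => t (n + i)]
    simp only [Nat.succ_eq_add_one, add_assoc, add_comm 1]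

theorem mul_eq_zero_of_invariant {B : Set (ℕ → Fin k)} (hB : MeasurableSet B)
    (hinv : ∀ t, t ∈ B ↔ (fun i => t (i + 1)) ∈ B) :
    law v μ (Bᶜ ∩ stay v ht) * law v μ (up v ht ∩ B) = 0 := by
  classical
  set P := law v μ
  set c := P (Bᶜ ∩ stay v ht)
  have hmc : MeasurableSet (Bᶜ ∩ stay v ht) := hB.compl.inter (measurableSet_stay v ht)
  refine le_antisymm (ENNReal.le_of_forall_pos_le_add fun ε hε _ => ?_) bot_le
  rw [zero_add]
  have hd : P.MeasureDense (measurableCylinders fun _ : ℕ => Fin k) :=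
    Measure.MeasureDense.of_generateFrom_isSetAlgebra_finite P isSetAlgebra_measurableCylinders
      generateFrom_measurableCylinders.symm
  obtain ⟨C, hC, hCε⟩ := hd.approx _ ((measurableSet_up v ht).inter hB) (measure_ne_top _ _)
    (ε / 2 : ℝ) (by positivity)
  obtain ⟨S, S', -, rfl⟩ := (mem_measurableCylinders _).1 hC
  set N := S.sup id + 1
  have hdep : ∀ n, N ≤ n → ∀ t t' : ℕ → Fin k, (∀ i < n, t i = t' i) →
      t ∈ cylinder S S' → t' ∈ cylinder S S' := fun n hn t t' h ht' => by
    have : S.restrict t = S.restrict t' := funext fun i => h i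
      (lt_of_lt_of_le (Nat.lt_succ_of_le (le_sup (f := id) i.2)) hn)
    rw [mem_cylinder] at ht' ⊢
    rwa [← this]
  set E : ℕ → Set (ℕ → Fin k) := fun n =>
    {t | t ∈ cylinder S S' ∧ N ≤ n ∧ Rec v ht n t ∧ ∀ m < n, N ≤ m → ¬ Rec v ht m t}
  have hE : ∀ n, ∀ t t' : ℕ → Fin k, (∀ i < n, t i = t' i) → t ∈ E n → t' ∈ E n := by
    rintro n t t' h ⟨h1, h2, h3, h4⟩
    refine ⟨hdep n h2 t t' h h1, h2, fun j hj => ?_, fun m hm hNm hr => h4 m hm hNm fun j hj => ?_⟩
    · rw [← pos_congr v h hj.le, ← pos_congr v h le_rfl]; exact h3 j hj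
    · rw [pos_congr v h (hj.trans hm).le, pos_congr v h hm.le]; exact hr j hj
  have hsplit : ∀ n, P (E n ∩ {t | (fun i => t (n + i)) ∈ Bᶜ ∩ stay v ht}) = P (E n) * c := by
    intro n
    have h1 := decompose v μ n (hE n) _ hmc
    have h2 := decompose v μ n (hE n) Set.univ .univ
    simp only [Set.mem_univ, Set.setOf_true, Set.inter_univ, and_true] at h2
    rw [h1, h2, sum_mul]
    refine sum_congr rfl fun w _ => ?_
    split_ifs with hw
    · exact law_record v μ ht hw.2.2.1 hmc Set.inter_subset_right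
    · rw [zero_mul]
  have hdisj : Pairwise (Function.onFun Disjoint E) := fun a b hab => by
    refine Set.disjoint_left.2 fun t ha hb => ?_
    rcases lt_or_gt_of_ne hab with h | h
    exacts [hb.2.2.2 a h ha.2.1 ha.2.2.1, ha.2.2.2 b h hb.2.1 hb.2.2.1]
  have hEm : ∀ n, MeasurableSet (E n) := fun n => measurableSet_of_prefix n (hE n)
  have hsh : ∀ n, MeasurableSet {t : ℕ → Fin k | (fun i => t (n + i)) ∈ Bᶜ ∩ stay v ht} :=
    fun n => (measurable_pi_lambda _ fun i => measurable_pi_apply (n + i)) hmc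
  have hcov : cylinder S S' ∩ up v ht ⊆ ⋃ n, E n := by
    rintro t ⟨h1, h2⟩
    have hex : ∃ n, N ≤ n ∧ Rec v ht n t := by
      obtain ⟨M, hM⟩ := ((range (N + 1)).image fun j => ht (pos v t j)).bddAbove
      have hex' : ∃ n, M < ht (pos v t n) := ((tendsto_atTop.1 h2 (M + 1)).exists).imp
        fun n hn => lt_of_lt_of_le (lt_add_one M) hn
      have hlow : ∀ j ≤ N, ht (pos v t j) ≤ M := fun j hj =>
        hM (mem_image_of_mem (fun j => ht (pos v t j)) (mem_range.2 (Nat.lt_succ_of_le hj)))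
      refine ⟨Nat.find hex', ?_, fun j hj => ?_⟩
      · by_contra hlt
        exact absurd (Nat.find_spec hex') (not_lt.2 (hlow _ (not_le.1 hlt).le))
      · exact lt_of_le_of_lt (not_lt.1 (Nat.find_min hex' hj)) (Nat.find_spec hex')
    exact Set.mem_iUnion.2 ⟨Nat.find hex, h1, (Nat.find_spec hex).1, (Nat.find_spec hex).2,
      fun m hm hNm hr => Nat.find_min hex hm ⟨hNm, hr⟩⟩
  have key : P (cylinder S S' ∩ up v ht) * c ≤ P (cylinder S S' \ B) := by
    calc P (cylinder S S' ∩ up v ht) * c ≤ P (⋃ n, E n) * c := by gcongr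
      _ = P (⋃ n, E n ∩ {t | (fun i => t (n + i)) ∈ Bᶜ ∩ stay v ht}) := by
        rw [measure_iUnion hdisj hEm, measure_iUnion ?_ fun n => (hEm n).inter (hsh n),
          ← ENNReal.tsum_mul_right]
        · exact tsum_congr fun n => (hsplit n).symm
        · exact fun a b hab => (hdisj hab).mono Set.inter_subset_left Set.inter_subset_left
      _ ≤ P (cylinder S S' \ B) := measure_mono <| Set.iUnion_subset fun n t ht' =>
        ⟨ht'.1.1, fun hb => ht'.2.1 ((shift_invariant hinv n t).2 hb)⟩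
  have hε2 : P ((up v ht ∩ B) ∆ cylinder S S') ≤ (ε / 2 : NNReal) := by
    refine hCε.le.trans (le_of_eq ?_)
    rw [← ENNReal.ofReal_coe_nnreal]
    simp
  have hc1 : c ≤ 1 := prob_le_one
  calc c * P (up v ht ∩ B)
      ≤ c * (P (cylinder S S' ∩ up v ht) + P ((up v ht ∩ B) ∆ cylinder S S')) := by
        gcongr
        refine (measure_mono ?_).trans (measure_union_le _ _)
        intro t htm
        by_cases hc : t ∈ cylinder S S'
        · exact Or.inl ⟨hc, htm.1⟩
        · exact Or.inr (Or.inl ⟨htm, hc⟩)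
    _ ≤ P (cylinder S S' \ B) + 1 * P ((up v ht ∩ B) ∆ cylinder S S') := by
        rw [mul_add, mul_comm c]
        gcongr
    _ ≤ (ε / 2 : NNReal) + (ε / 2 : NNReal) := by
        rw [one_mul]
        gcongr
        refine (measure_mono ?_).trans hε2
        exact fun t h => Or.inr ⟨h.1, fun h' => h.2 h'.2⟩
    _ = ε := by rw [← ENNReal.coe_add, add_halves]

/-- On an escape event every shift-invariant event is trivial. -/
theorem conditional_zero_one {B : Set (ℕ → Fin k)} (hB : MeasurableSet B)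
    (hinv : ∀ t, t ∈ B ↔ (fun i => t (i + 1)) ∈ B) :
    law v μ (up v ht ∩ B) = 0 ∨ law v μ (up v ht \ B) = 0 := by
  by_contra hcon
  rw [not_or] at hcon
  have h1 := (mul_eq_zero.1 (mul_eq_zero_of_invariant v μ ht hB hinv)).resolve_right hcon.1
  have h2 := mul_eq_zero_of_invariant v μ ht hB.compl fun t => not_congr (hinv t)
  rw [compl_compl, ← Set.sdiff_eq] at h2
  have h2 := (mul_eq_zero.1 h2).resolve_right hcon.2
  have hD : law v μ (stay v ht) = 0 := by
    refine measure_mono_null ?_ (measure_union_null h1 h2)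
    intro t h
    by_cases hb : t ∈ B
    exacts [Or.inr ⟨hb, h⟩, Or.inl ⟨hb, h⟩]
  refine hcon.2 (measure_mono_null ?_ (measure_iUnion_null fun n =>
    law_shift_null v μ n (measurableSet_stay v ht) hD))
  rintro t ⟨h, -⟩
  obtain ⟨n, hn⟩ := Tendsto.exists_forall_le (f := fun m => ht (pos v t m))
    (by rw [Nat.cofinite_eq_atTop]; exact h)
  refine Set.mem_iUnion.2 ⟨n, fun m => ?_⟩
  have := hn (n + m)
  rw [pos_add, map_add] at this
  linarith

theorem up_invariant (t : ℕ → Fin k) : t ∈ up v ht ↔ (fun i => t (i + 1)) ∈ up v ht := by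
  have e : ∀ n, ht (pos v (fun i => t (i + 1)) n) =
      ht (pos v t (n + 1)) + -ht (v (t 0)) := fun n => by
    simp only [pos, sum_range_succ' (fun i => v (t i)) n, map_add]
    abel
  show Tendsto _ atTop atTop ↔ Tendsto _ atTop atTop
  simp only [e]
  rw [← tendsto_add_atTop_iff_nat (f := fun n => ht (pos v t n)) 1]
  refine ⟨fun h => tendsto_atTop_add_const_right _ _ h, fun h => ?_⟩
  simpa using tendsto_atTop_add_const_right _ (ht (v (t 0))) h

/-- The height in direction `l`. -/
def dot (l : Fin d → ℝ) : Site d →+ ℝ where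
  toFun x := ∑ j, l j * (x j : ℝ)
  map_zero' := by simp
  map_add' x y := by simp [mul_add, sum_add_distrib]

omit [NeZero k] in
theorem escape_eq (l : Fin d → ℝ) : Escape v l = up v (dot l) := rfl

end Vale.Agent.P147.Cond
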