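import Vale.Agent.P147.Cond.Symmetric

/-!
P147: with a symmetry group, the zero-one law reduces to the invariant directions.
-/

open MeasureTheory Filter Finset

namespace Vale.Agent.P147.Cond

variable {d k : ℕ} [NeZero k] (v : Fin k → Site d) (μ : Measure (Row k)) [IsProbabilityMeasure μ]

/-- If every invariant direction obeys the zero-one law, so does every direction. -/
theorem zero_one_of_invariant (hpos : ∀ i, ∀ᵐ p ∂μ, 0 < p.1 i)
    (G : Finset (Equiv.Perm (Fin k))) (hne : G.Nonempty) (hG : ∀ a ∈ G, ∀ b ∈ G, a * b ∈ G)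
    (g : Equiv.Perm (Fin k) → Site d ≃+ Site d)
    (hv : ∀ a ∈ G, ∀ i, v (a i) = g a (v i))
    (hhom : ∀ a ∈ G, ∀ b ∈ G, ∀ z, g (a * b) z = g a (g b z))
    (hinv : ∀ a ∈ G, μ.map (fun p : Row k => (p.1 ∘ a)) = μ.map Subtype.val)
    (hfix : ∀ m : Site d →+ ℝ, (∀ a ∈ G, (∀ z, m (g a z) = m z) ∨ ∀ z, m (g a z) = -m z) →
      law v μ (up v m) = 0 ∨ law v μ (up v m) = 1)
    (f : Site d →+ ℝ) : law v μ (up v f) = 0 ∨ law v μ (up v f) = 1 := by
  by_cases hf : law v μ (up v f) = 0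
  · exact Or.inl hf
  right
  obtain ⟨m, hm1, hm2, hm3, -⟩ := exists_invariant_direction v μ hpos G hne hG g hv hhom hinv f hf
  have hone := (hfix m hm1).resolve_left hm2
  have hneg : law v μ (up v (-m)) = 0 := by
    refine measure_eq_zero_iff_ae_notMem.2 ?_
    filter_upwards [measure_eq_zero_iff_ae_notMem.1
      ((prob_compl_eq_zero_iff (measurableSet_up v m)).2 hone)] with t h1 h2
    exact h1 fun hp => up_disjoint v m t hp h2
  have hnf : law v μ (up v (-f)) = 0 := by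
    by_contra h
    exact hm3 h hneg
  rw [← prob_compl_eq_zero_iff (measurableSet_up v f)]
  refine measure_eq_zero_iff_ae_notMem.2 ?_
  filter_upwards [union_ae v μ hpos hf, measure_eq_zero_iff_ae_notMem.1 hnf] with t h1 h2 h3
  exact h3 (h1.resolve_right h2)

/-- A drift of constant sign in direction `m` gives the zero-one law for that direction. -/
theorem zero_one_of_drift (hpos : ∀ i, ∀ᵐ p ∂μ, 0 < p.1 i) (m : Site d →+ ℝ)
    (hdr : (∀ᵐ p ∂μ, 0 ≤ ∑ i, (p.1 i : ℝ) * m (v i)) ∨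
      ∀ᵐ p ∂μ, ∑ i, (p.1 i : ℝ) * m (v i) ≤ 0) :
    law v μ (up v m) = 0 ∨ law v μ (up v m) = 1 := by
  by_cases hm : law v μ (up v m) = 0
  · exact Or.inl hm
  rcases hdr with h | h
  · right
    have hn : law v μ (up v (-m)) = 0 := no_escape_against_drift v μ (-m) (by
      filter_upwards [h] with p hp
      simpa [sum_neg_distrib] using hp)
    rw [← prob_compl_eq_zero_iff (measurableSet_up v m)]
    refine measure_eq_zero_iff_ae_notMem.2 ?_
    filter_upwards [union_ae v μ hpos hm, measure_eq_zero_iff_ae_notMem.1 hn] with t h1 h2 h3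
    exact h3 (h1.resolve_right h2)
  · exact Or.inl (no_escape_against_drift v μ m h)

/-- The reduction combined with the drift criterion. -/
theorem zero_one_of_invariant_drift (hpos : ∀ i, ∀ᵐ p ∂μ, 0 < p.1 i)
    (G : Finset (Equiv.Perm (Fin k))) (hne : G.Nonempty) (hG : ∀ a ∈ G, ∀ b ∈ G, a * b ∈ G)
    (g : Equiv.Perm (Fin k) → Site d ≃+ Site d)
    (hv : ∀ a ∈ G, ∀ i, v (a i) = g a (v i))
    (hhom : ∀ a ∈ G, ∀ b ∈ G, ∀ z, g (a * b) z = g a (g b z))
    (hinv : ∀ a ∈ G, μ.map (fun p : Row k => (p.1 ∘ a)) = μ.map Subtype.val)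
    (hdr : ∀ m : Site d →+ ℝ, (∀ a ∈ G, (∀ z, m (g a z) = m z) ∨ ∀ z, m (g a z) = -m z) →
      (∀ᵐ p ∂μ, 0 ≤ ∑ i, (p.1 i : ℝ) * m (v i)) ∨ ∀ᵐ p ∂μ, ∑ i, (p.1 i : ℝ) * m (v i) ≤ 0)
    (f : Site d →+ ℝ) : law v μ (up v f) = 0 ∨ law v μ (up v f) = 1 :=
  zero_one_of_invariant v μ hpos G hne hG g hv hhom hinv
    (fun m hm => zero_one_of_drift v μ hpos m (hdr m hm)) f

end Vale.Agent.P147.Cond
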