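import Vale.Agent.P147.Cond.Isotropic
import Vale.Agent.P147.Cond.Reduction

/-!
P147: no escape in directions whose orbit span has no invariant functional.
-/

open MeasureTheory Filter Finset

namespace Vale.Agent.P147.Cond

variable {d k : ℕ} [NeZero k] (v : Fin k → Site d) (μ : Measure (Row k)) [IsProbabilityMeasure μ]

theorem no_escape_of_orbit (hpos : ∀ i, ∀ᵐ p ∂μ, 0 < p.1 i)
    (G : Finset (Equiv.Perm (Fin k))) (hne : G.Nonempty) (hG : ∀ a ∈ G, ∀ b ∈ G, a * b ∈ G)
    (g : Equiv.Perm (Fin k) → Site d ≃+ Site d)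
    (hv : ∀ a ∈ G, ∀ i, v (a i) = g a (v i))
    (hhom : ∀ a ∈ G, ∀ b ∈ G, ∀ z, g (a * b) z = g a (g b z))
    (hinv : ∀ a ∈ G, μ.map (fun p : Row k => (p.1 ∘ a)) = μ.map Subtype.val)
    (f : Site d →+ ℝ)
    (hspan : ∀ m : Site d →+ ℝ, (∀ a ∈ G, (∀ z, m (g a z) = m z) ∨ ∀ z, m (g a z) = -m z) →
      (∀ z, (∀ a ∈ G, f (g a z) = 0) → m z = 0) → m = 0) :
    law v μ (up v f) = 0 := by
  by_contra hf
  obtain ⟨m, hm1, hm2, -, hm4⟩ :=
    exists_invariant_direction v μ hpos G hne hG g hv hhom hinv f hf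
  rw [hspan m hm1 hm4] at hm2
  exact hm2 (up_zero_null v μ)

/-- On unit steps with symmetry about one axis, no transverse direction is an escape direction,
and the axis decides the zero-one law for all directions. -/
theorem transverse_axis (hd : 3 ≤ d) (a₀ : Fin d) (hinj : Function.Injective v)
    (hrange : Set.range v = {z | ∃ (j : Fin d) (s : ℤ), (s = 1 ∨ s = -1) ∧ z = Pi.single j s})
    (hpos : ∀ i, ∀ᵐ p ∂μ, 0 < p.1 i)
    (hiso : ∀ (π : Equiv.Perm (Fin k)) (g : Site d ≃+ Site d), (∀ i, v (π i) = g (v i)) →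
      (∀ z, g z a₀ = z a₀) → μ.map (fun p : Row k => (p.1 ∘ π)) = μ.map Subtype.val)
    (f : Site d →+ ℝ) :
    (f (Pi.single a₀ 1) = 0 → law v μ (up v f) = 0) ∧
    ((law v μ {t | Tendsto (fun n => (pos v t n a₀ : ℝ)) atTop atTop} = 0 ∨
        law v μ {t | Tendsto (fun n => (pos v t n a₀ : ℝ)) atTop atBot} = 0) →
      law v μ (up v f) = 0 ∨ law v μ (up v f) = 1) := by
  classical
  set G : Finset (Equiv.Perm (Fin k)) :=
    univ.filter fun π => ∃ g : Site d ≃+ Site d, (∀ i, v (π i) = g (v i)) ∧ ∀ z, g z a₀ = z a₀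
  set g : Equiv.Perm (Fin k) → Site d ≃+ Site d := fun π =>
    if h : ∃ g : Site d ≃+ Site d, (∀ i, v (π i) = g (v i)) ∧ ∀ z, g z a₀ = z a₀ then h.choose
    else AddEquiv.refl _
  have hgv : ∀ π ∈ G, ∀ i, v (π i) = g π (v i) := fun π hπ => by
    have h := (mem_filter.1 hπ).2
    simp only [g, dif_pos h]
    exact h.choose_spec.1
  have hga : ∀ π ∈ G, ∀ z, g π z a₀ = z a₀ := fun π hπ => by
    have h := (mem_filter.1 hπ).2
    simp only [g, dif_pos h]
    exact h.choose_spec.2
  have hstep : ∀ (j : Fin d) (s : ℤ), s = 1 ∨ s = -1 → ∃ i, v i = Pi.single j s := fun j s hs => by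
    have : Pi.single j s ∈ Set.range v := by rw [hrange]; exact ⟨j, s, hs, rfl⟩
    exact this
  have hmem : ∀ i, ∃ (j : Fin d) (s : ℤ), (s = 1 ∨ s = -1) ∧ v i = Pi.single j s := fun i => by
    have : v i ∈ Set.range v := ⟨i, rfl⟩
    rwa [hrange] at this
  have hext : ∀ g1 g2 : Site d → Site d, (∀ a b, g1 (a + b) = g1 a + g1 b) →
      (∀ a b, g2 (a + b) = g2 a + g2 b) → (∀ i, g1 (v i) = g2 (v i)) → ∀ z, g1 z = g2 z := by
    intro g1 g2 h1 h2 h z
    let F1 : Site d →+ Site d := AddMonoidHom.mk' g1 h1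
    let F2 : Site d →+ Site d := AddMonoidHom.mk' g2 h2
    show F1 z = F2 z
    rw [decompose_site z, map_sum, map_sum]
    refine sum_congr rfl fun j _ => ?_
    obtain ⟨i, hi⟩ := hstep j 1 (Or.inl rfl)
    rw [map_zsmul, map_zsmul, ← hi]
    exact congrArg _ (h i)
  have hG : ∀ a ∈ G, ∀ b ∈ G, a * b ∈ G := fun a ha b hb =>
    mem_filter.2 ⟨mem_univ _, (g b).trans (g a), fun i => by
      simp [hgv a ha, hgv b hb], fun z => by simp [hga a ha, hga b hb]⟩
  have hne : G.Nonempty := ⟨1, mem_filter.2 ⟨mem_univ _, AddEquiv.refl _,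
    fun i => rfl, fun z => rfl⟩⟩
  have hhom : ∀ a ∈ G, ∀ b ∈ G, ∀ z, g (a * b) z = g a (g b z) := fun a ha b hb =>
    hext _ _ (map_add _) (fun x y => by simp)
      fun i => by rw [← hgv _ (hG a ha b hb) i, ← hgv b hb i, ← hgv a ha (b i)]; rfl
  have hinv : ∀ a ∈ G, μ.map (fun p : Row k => (p.1 ∘ a)) = μ.map Subtype.val :=
    fun a ha => hiso a (g a) (hgv a ha) (hga a ha)
  have hmk : ∀ q : Site d ≃+ Site d, (∀ z, q z a₀ = z a₀) → (∀ i, ∃ i', v i' = q (v i)) →
      ∃ π ∈ G, ∀ z, g π z = q z := by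
    intro q hqa hq
    choose p hp using hq
    have hpi : Function.Injective p := fun a b h => hinj (q.injective (by rw [← hp, ← hp, h]))
    set π := Equiv.ofBijective p (Finite.injective_iff_bijective.1 hpi)
    have hπ : π ∈ G := mem_filter.2 ⟨mem_univ _, q, hp, hqa⟩
    refine ⟨π, hπ, hext _ _ (map_add _) (map_add _) fun i => ?_⟩
    rw [← hgv π hπ i]
    exact hp i
  have hfix : ∀ m : Site d →+ ℝ, (∀ a ∈ G, (∀ z, m (g a z) = m z) ∨ ∀ z, m (g a z) = -m z) →
      ∀ z, m z = m (Pi.single a₀ 1) * (z a₀ : ℝ) := by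
    intro m hm
    have hflip : ∀ j, j ≠ a₀ →
        (∀ z, m (flipAt j z) = m z) ∨ ∀ z, m (flipAt j z) = -m z := by
      intro j hja
      obtain ⟨π, hπ, he⟩ := hmk (flipAt j)
        (fun z => Function.update_of_ne hja.symm _ _) fun i => by
        obtain ⟨l, s, hs, h⟩ := hmem i
        rw [h, flipAt_single]
        exact hstep _ _ (by split_ifs <;> omega)
      simpa [he] using hm π hπ
    have hswap : ∀ a b, a ≠ a₀ → b ≠ a₀ →
        (∀ z, m (swapAt a b z) = m z) ∨ ∀ z, m (swapAt a b z) = -m z := by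
      intro a b ha hb
      obtain ⟨π, hπ, he⟩ := hmk (swapAt a b)
        (fun z => congrArg z (Equiv.swap_apply_of_ne_of_ne ha.symm hb.symm)) fun i => by
        obtain ⟨l, s, hs, h⟩ := hmem i
        rw [h, swapAt_single]
        exact hstep _ _ hs
      simpa [he] using hm π hπ
    have hzero : ∀ j, j ≠ a₀ → m (Pi.single j (1 : ℤ)) = 0 := by
      by_contra hne
      push Not at hne
      obtain ⟨j, hja, hj⟩ := hne
      obtain ⟨i, hij, hia⟩ : ∃ i, i ≠ j ∧ i ≠ a₀ := by
        by_contra hc
        push Not at hc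
        have : (univ : Finset (Fin d)) ⊆ {j, a₀} := fun i _ => by
          by_cases h : i = j
          · simp [h]
          · simp [hc i h]
        have := card_le_card this
        rw [card_univ, Fintype.card_fin] at this
        linarith [card_le_two (a := j) (b := a₀)]
      have hi0 : m (Pi.single i (1 : ℤ)) = 0 := by
        rcases hflip j hja with h | h
        · exfalso
          have := h (Pi.single j 1)
          rw [flipAt_single, if_pos rfl, Pi.single_neg, map_neg] at this
          exact hj (by linarith)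
        · have := h (Pi.single i 1)
          rw [flipAt_single, if_neg hij] at this
          linarith
      rcases hswap i j hia hja with h | h
      all_goals
        have := h (Pi.single i 1)
        rw [swapAt_single, Equiv.swap_apply_left, hi0] at this
        exact hj (by linarith)
    intro z
    conv_lhs => rw [decompose_site z, map_sum]
    rw [sum_eq_single a₀ (fun j _ hja => by rw [map_zsmul, hzero j hja, smul_zero])
      (by simp), map_zsmul, zsmul_eq_mul]
    ring
  have haxis : ∀ a ∈ G, g a (Pi.single a₀ 1) = Pi.single a₀ 1 := by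
    intro a ha
    obtain ⟨i, hi⟩ := hstep a₀ 1 (Or.inl rfl)
    obtain ⟨j, s, hs, hj⟩ := hmem (a i)
    have h1 := hga a ha (Pi.single a₀ 1)
    rw [← hi, ← hgv a ha i, hj, hi] at h1
    rw [← hi, ← hgv a ha i, hj, hi]
    by_cases hja : a₀ = j
    · subst hja
      simp at h1
      rw [h1]
    · rw [Pi.single_eq_of_ne hja] at h1
      simp at h1
  constructor
  · intro hf
    refine no_escape_of_orbit v μ hpos G hne hG g hgv hhom hinv f fun m hm1 hm2 => ?_
    have h0 : m (Pi.single a₀ 1) = 0 := hm2 _ fun a ha => by rw [haxis a ha, hf]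
    exact DFunLike.ext _ _ fun z => by rw [hfix m hm1 z, h0, zero_mul, AddMonoidHom.zero_apply]
  · intro hax
    by_cases hf : law v μ (up v f) = 0
    · exact Or.inl hf
    right
    obtain ⟨m, hm1, hm2, hm3, -⟩ :=
      exists_invariant_direction v μ hpos G hne hG g hgv hhom hinv f hf
    set c := m (Pi.single a₀ 1)
    have hc : c ≠ 0 := fun h0 => hm2 (by
      rw [show m = 0 from DFunLike.ext _ _ fun z => by
        rw [hfix m hm1 z, show m (Pi.single a₀ 1) = 0 from h0, zero_mul, AddMonoidHom.zero_apply]]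
      exact up_zero_null v μ)
    have hnf : law v μ (up v (-f)) = 0 := by
      by_contra hnf
      have hm4 := hm3 hnf
      have heq : ∀ t n, m (pos v t n) = c * (pos v t n a₀ : ℝ) := fun t n => hfix m hm1 _
      rcases lt_or_gt_of_ne hc with hc | hc <;> rcases hax with h | h
      · exact hm4 (measure_mono_null (fun t ht => by
          simp only [up, Set.mem_setOf_eq, AddMonoidHom.neg_apply, heq, ← neg_mul] at ht ⊢
          exact (tendsto_const_mul_atTop_of_pos (neg_pos.2 hc)).1 ht) h)
      · exact hm2 (measure_mono_null (fun t ht => by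
          simp only [up, Set.mem_setOf_eq, heq] at ht ⊢
          exact (tendsto_const_mul_atTop_of_neg hc).1 ht) h)
      · exact hm2 (measure_mono_null (fun t ht => by
          simp only [up, Set.mem_setOf_eq, heq] at ht ⊢
          exact (tendsto_const_mul_atTop_of_pos hc).1 ht) h)
      · exact hm4 (measure_mono_null (fun t ht => by
          simp only [up, Set.mem_setOf_eq, AddMonoidHom.neg_apply, heq, ← neg_mul] at ht ⊢
          exact (tendsto_const_mul_atTop_of_neg (neg_neg_of_pos hc)).1 ht) h)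
    rw [← prob_compl_eq_zero_iff (measurableSet_up v f)]
    refine measure_eq_zero_iff_ae_notMem.2 ?_
    filter_upwards [union_ae v μ hpos hf, measure_eq_zero_iff_ae_notMem.1 hnf] with t h1 h2 h3
    exact h3 (h1.resolve_right h2)

end Vale.Agent.P147.Cond
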