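import Vale.Agent.P147.Cond.Union

/-!
P147: environments with a symmetry group fixing no line have no escape direction.
-/

open MeasureTheory Filter Finset
open scoped ENNReal Topology

namespace Vale.Agent.P147.Cond

variable {d k : ℕ} [NeZero k] (v : Fin k → Site d) (μ : Measure (Row k)) [IsProbabilityMeasure μ]

theorem map_relabel (π : Equiv.Perm (Fin k)) (g : Site d ≃+ Site d)
    (hinv : μ.map (fun p : Row k => (p.1 ∘ π)) = μ.map Subtype.val) :
    (envLaw (d := d) μ).map (fun ω z => ((ω (g z)).1 ∘ π)) =
      (envLaw (d := d) μ).map (fun ω z => (ω z).1) := by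
  classical
  have hval : Measurable fun p : Row k => p.1 := measurable_subtype_coe
  have hper : Measurable fun p : Row k => (p.1 ∘ π) :=
    measurable_pi_lambda _ fun i => (measurable_pi_apply (π i)).comp hval
  have := Measure.isProbabilityMeasure_map (μ := μ) hval.aemeasurable
  have hA : Measurable fun (ω : Site d → Row k) z => (ω z).1 :=
    measurable_pi_lambda _ fun z => Measurable.comp (g := Subtype.val) hval (measurable_pi_apply z)
  have hB : Measurable fun (ω : Site d → Row k) z => ((ω (g z)).1 ∘ π) :=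
    measurable_pi_lambda _ fun z =>
      Measurable.comp (g := fun p : Row k => (p.1 ∘ π)) hper (measurable_pi_apply (g z))
  have h1 : (envLaw (d := d) μ).map (fun ω z => (ω z).1) =
      Measure.infinitePi fun _ : Site d => μ.map Subtype.val := by
    refine Measure.eq_infinitePi _ fun S t ht => ?_
    rw [Measure.map_apply hA (.pi S.countable_toSet fun i _ => ht i)]
    have : (fun (ω : Site d → Row k) z => (ω z).1) ⁻¹' Set.pi S t =
        Set.pi (S : Set (Site d)) (fun z => Subtype.val ⁻¹' t z) := rfl
    rw [this, Measure.infinitePi_pi _ fun i _ => hval (ht i)]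
    exact prod_congr rfl fun i _ => (Measure.map_apply hval (ht i)).symm
  rw [h1]
  refine Measure.eq_infinitePi _ fun S t ht => ?_
  rw [Measure.map_apply hB (.pi S.countable_toSet fun i _ => ht i)]
  have : (fun (ω : Site d → Row k) z => ((ω (g z)).1 ∘ π)) ⁻¹' Set.pi S t =
      Set.pi ((S.image g : Finset (Site d)) : Set (Site d))
        (fun y => (fun p : Row k => (p.1 ∘ π)) ⁻¹' t (g.symm y)) := by
    ext ω
    simp only [Set.mem_preimage, Set.mem_pi, mem_coe, mem_image]
    refine ⟨?_, fun h z hz => ?_⟩
    · rintro h y ⟨z, hz, rfl⟩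
      simpa using h z hz
    · simpa using h (g z) ⟨z, hz, rfl⟩
  rw [this, Measure.infinitePi_pi _ fun i _ => hper (ht _),
    prod_image fun a _ b _ h => g.injective h]
  refine prod_congr rfl fun i _ => ?_
  rw [AddEquiv.symm_apply_apply, ← Measure.map_apply hper (ht i), hinv]

theorem pos_relabel (π : Equiv.Perm (Fin k)) (g : Site d ≃+ Site d)
    (hv : ∀ i, v (π i) = g (v i)) (t : ℕ → Fin k) (n : ℕ) :
    pos v (fun i => π (t i)) n = g (pos v t n) := by
  simp only [pos, map_sum, hv]

theorem law_relabel (π : Equiv.Perm (Fin k)) (g : Site d ≃+ Site d)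
    (hv : ∀ i, v (π i) = g (v i))
    (hinv : μ.map (fun p : Row k => (p.1 ∘ π)) = μ.map Subtype.val) :
    MeasurePreserving (fun t i => π (t i)) (law v μ) (law v μ) := by
  classical
  have hf : Measurable fun (t : ℕ → Fin k) i => π (t i) :=
    measurable_pi_lambda _ fun i => (measurable_of_finite π).comp (measurable_pi_apply i)
  refine ⟨hf, ?_⟩
  set Q := (law v μ).map fun t i => π (t i)
  have : IsProbabilityMeasure Q := Measure.isProbabilityMeasure_map hf.aemeasurable
  have hpre : ∀ n (s : ℕ → Fin k), Q {t | ∀ i < n, t i = s i} =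
      law v μ {t | ∀ i < n, t i = s i} := by
    intro n s
    have hm : MeasurableSet {t : ℕ → Fin k | ∀ i < n, t i = s i} :=
      measurable_mem (n := n) fun t t' h ht i hi => (h i hi).symm.trans (ht i hi)
    rw [Measure.map_apply hf hm]
    have hset : (fun (t : ℕ → Fin k) i => π (t i)) ⁻¹' {t | ∀ i < n, t i = s i} =
        {t | ∀ i < n, t i = π.symm (s i)} := by
      ext t
      simp [Equiv.eq_symm_apply]
    set s' : ℕ → Fin k := fun i => π.symm (s i)
    rw [hset, law_prefix, law_prefix]
    have hp : ∀ i, pos v s i = g (pos v s' i) := fun i => by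
      rw [← pos_relabel v π g hv]
      simp [s']
    set F : (Site d → Fin k → ℝ) → ℝ≥0∞ :=
      fun η => ∏ i ∈ range n, ENNReal.ofReal (η (pos v s' i) (s' i))
    have hF : Measurable F := Finset.measurable_prod _ fun i _ =>
      ENNReal.measurable_ofReal.comp ((measurable_pi_apply _).comp (measurable_pi_apply _))
    have e1 : ∀ ω, weight v s' n ω = F (fun z => (ω z).1) := fun ω => rfl
    have e2 : ∀ ω, weight v s n ω = F (fun z => ((ω (g z)).1 ∘ π)) := fun ω =>
      prod_congr rfl fun i _ => by simp [hp, s']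
    show ∫⁻ ω, weight v s' n ω ∂envLaw μ = _
    rw [lintegral_congr e1, lintegral_congr e2]
    have hA : Measurable fun (ω : Site d → Row k) z => (ω z).1 :=
      measurable_pi_lambda _ fun z =>
        Measurable.comp (g := Subtype.val) measurable_subtype_coe (measurable_pi_apply z)
    have hB : Measurable fun (ω : Site d → Row k) z => ((ω (g z)).1 ∘ π) :=
      measurable_pi_lambda _ fun z => measurable_pi_lambda _ fun i =>
        Measurable.comp (g := fun p : Row k => p.1 (π i))
          (f := fun ω : Site d → Row k => ω (g z))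
          ((measurable_pi_apply (π i)).comp measurable_subtype_coe) (measurable_pi_apply (g z))
    rw [← lintegral_map hF hA, ← lintegral_map hF hB, map_relabel μ π g hinv]
  refine ext_of_generate_finite _ generateFrom_measurableCylinders.symm
    isPiSystem_measurableCylinders (fun C hC => ?_) (by simp)
  obtain ⟨S, S', -, rfl⟩ := (mem_measurableCylinders _).1 hC
  set N := S.sup id + 1
  have hdep : ∀ t t' : ℕ → Fin k, (∀ i < N, t i = t' i) →
      t ∈ cylinder S S' → t' ∈ cylinder S S' := fun t t' h ht' => by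
    have : S.restrict t = S.restrict t' := funext fun i => h i
      (Nat.lt_succ_of_le (le_sup (f := id) i.2))
    rw [mem_cylinder] at ht' ⊢
    rwa [← this]
  rw [← Set.inter_univ (cylinder S S' : Set (ℕ → Fin k)), sum_prefix Q N hdep MeasurableSet.univ,
    sum_prefix (law v μ) N hdep MeasurableSet.univ]
  simp only [Set.inter_univ, hpre]

theorem up_disjoint (h : Site d →+ ℝ) (t : ℕ → Fin k) (h1 : t ∈ up v h) (h2 : t ∈ up v (-h)) :
    False := by
  obtain ⟨n, hn1, hn2⟩ :=
    ((tendsto_atTop.1 h1 1).and (tendsto_atTop.1 h2 1)).exists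
  simp only [AddMonoidHom.neg_apply] at hn2
  linarith

theorem exists_pos_step {h : Site d →+ ℝ} (hup : law v μ (up v h) ≠ 0) : ∃ i, 0 < h (v i) := by
  by_contra hc
  push Not at hc
  refine hup ?_
  convert measure_empty (μ := law v μ)
  refine Set.eq_empty_of_forall_notMem fun t ht => ?_
  obtain ⟨n, hn⟩ := (tendsto_atTop.1 ht 1).exists
  have : h (pos v t n) ≤ 0 := by
    simp only [pos, map_sum]
    exact sum_nonpos fun i _ => hc _
  linarith

theorem union_ae (hpos : ∀ i, ∀ᵐ p ∂μ, 0 < p.1 i) {h : Site d →+ ℝ}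
    (hup : law v μ (up v h) ≠ 0) : ∀ᵐ t ∂law v μ, t ∈ up v h ∨ t ∈ up v (-h) := by
  obtain ⟨i0, hi0⟩ := exists_pos_step v μ hup
  exact union_full v μ h i0 (hpos i0) hi0 hup

theorem cond_ae (h h' : Site d →+ ℝ) :
    law v μ (up v h ∩ up v h') = 0 ∨ ∀ᵐ t ∂law v μ, t ∈ up v h → t ∈ up v h' := by
  refine (conditional_zero_one v μ h (measurableSet_up v h') (up_invariant v h')).imp id fun h0 => ?_
  filter_upwards [measure_eq_zero_iff_ae_notMem.1 h0] with t ht h1
  by_contra h2
  exact ht ⟨h1, h2⟩

/-- Up to sign, every image of an escape direction gives the same event. -/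
theorem sign_choice (hpos : ∀ i, ∀ᵐ p ∂μ, 0 < p.1 i) {f h : Site d →+ ℝ}
    (hf : law v μ (up v f) ≠ 0) (hh : law v μ (up v h) = law v μ (up v f))
    (hh' : law v μ (up v (-h)) = law v μ (up v (-f))) :
    (∀ᵐ t ∂law v μ, t ∈ up v h ↔ t ∈ up v f) ∨ ∀ᵐ t ∂law v μ, t ∈ up v (-h) ↔ t ∈ up v f := by
  have hu := union_ae v μ hpos (h := h) (by rw [hh]; exact hf)
  rcases cond_ae v μ f h with h1 | h1
  · right
    have hfh : ∀ᵐ t ∂law v μ, t ∈ up v f → t ∈ up v (-h) := by
      filter_upwards [hu, measure_eq_zero_iff_ae_notMem.1 h1] with t ht ht' hf'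
      exact ht.resolve_left fun hh' => ht' ⟨hf', hh'⟩
    rcases cond_ae v μ (-h) f with h2 | h2
    · exfalso
      refine hf (measure_eq_zero_iff_ae_notMem.2 ?_)
      filter_upwards [hfh, measure_eq_zero_iff_ae_notMem.1 h2] with t ht ht' hf'
      exact ht' ⟨ht hf', hf'⟩
    · filter_upwards [hfh, h2] with t ht ht' using ⟨ht', ht⟩
  · left
    rcases cond_ae v μ h f with h2 | h2
    · exfalso
      refine hf (measure_eq_zero_iff_ae_notMem.2 ?_)
      filter_upwards [h1, measure_eq_zero_iff_ae_notMem.1 h2] with t ht ht' hf'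
      exact ht' ⟨ht hf', hf'⟩
    · filter_upwards [h1, h2] with t ht ht' using ⟨ht', ht⟩

theorem exists_invariant_direction (hpos : ∀ i, ∀ᵐ p ∂μ, 0 < p.1 i)
    (G : Finset (Equiv.Perm (Fin k))) (hne : G.Nonempty) (hG : ∀ a ∈ G, ∀ b ∈ G, a * b ∈ G)
    (g : Equiv.Perm (Fin k) → Site d ≃+ Site d)
    (hv : ∀ a ∈ G, ∀ i, v (a i) = g a (v i))
    (hhom : ∀ a ∈ G, ∀ b ∈ G, ∀ z, g (a * b) z = g a (g b z))
    (hinv : ∀ a ∈ G, μ.map (fun p : Row k => (p.1 ∘ a)) = μ.map Subtype.val)
    (f : Site d →+ ℝ) (hf : law v μ (up v f) ≠ 0) :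
    ∃ m : Site d →+ ℝ, (∀ a ∈ G, (∀ z, m (g a z) = m z) ∨ ∀ z, m (g a z) = -m z) ∧
      law v μ (up v m) ≠ 0 ∧ (law v μ (up v (-f)) ≠ 0 → law v μ (up v (-m)) ≠ 0) ∧
      ∀ z, (∀ a ∈ G, f (g a z) = 0) → m z = 0 := by
  classical
  have hmp : ∀ a ∈ G, MeasurePreserving (fun t i => a (t i)) (law v μ) (law v μ) := fun a ha =>
    law_relabel v μ a (g a) (hv a ha) (hinv a ha)
  set im : Equiv.Perm (Fin k) → (Site d →+ ℝ) → (Site d →+ ℝ) :=
    fun a h => h.comp (g a).toAddMonoidHom with him
  have hpre : ∀ a ∈ G, ∀ h, (fun (t : ℕ → Fin k) i => a (t i)) ⁻¹' up v h = up v (im a h) :=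
    fun a ha h => by
      ext t
      simp only [up, Set.mem_preimage, Set.mem_setOf_eq, pos_relabel v a (g a) (hv a ha)]
      rfl
  have hmeas : ∀ a ∈ G, ∀ h, law v μ (up v (im a h)) = law v μ (up v h) := fun a ha h => by
    rw [← hpre a ha h]
    exact (hmp a ha).measure_preimage (measurableSet_up v h).nullMeasurableSet
  have hnegim : ∀ a h, im a (-h) = -im a h := fun a h => rfl
  have hpull : ∀ a ∈ G, ∀ h h', (∀ᵐ t ∂law v μ, t ∈ up v h ↔ t ∈ up v h') →
      ∀ᵐ t ∂law v μ, t ∈ up v (im a h) ↔ t ∈ up v (im a h') := fun a ha h h' hh => by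
    filter_upwards [(hmp a ha).quasiMeasurePreserving.ae hh] with t ht
    rw [← hpre a ha h, ← hpre a ha h']
    exact ht
  have hneg : ∀ h h', law v μ (up v h) ≠ 0 → law v μ (up v h') ≠ 0 →
      (∀ᵐ t ∂law v μ, t ∈ up v h ↔ t ∈ up v h') →
      ∀ᵐ t ∂law v μ, t ∈ up v (-h) ↔ t ∈ up v (-h') := fun h h' h0 h0' hh => by
    filter_upwards [union_ae v μ hpos h0, union_ae v μ hpos h0', hh] with t h1 h2 h3
    constructor
    · exact fun hm => h2.resolve_left fun hp => up_disjoint v h t (h3.2 hp) hm
    · exact fun hm => h1.resolve_left fun hp => up_disjoint v h' t (h3.1 hp) hm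
  set H : Equiv.Perm (Fin k) → (Site d →+ ℝ) := fun a =>
    if ∀ᵐ t ∂law v μ, t ∈ up v (im a f) ↔ t ∈ up v f then im a f else -im a f
  have hH : ∀ a ∈ G, (H a = im a f ∨ H a = -im a f) ∧
      ∀ᵐ t ∂law v μ, t ∈ up v (H a) ↔ t ∈ up v f := fun a ha => by
    simp only [H]
    split_ifs with h
    · exact ⟨Or.inl rfl, h⟩
    · exact ⟨Or.inr rfl, (sign_choice v μ hpos hf (hmeas a ha f)
        (by rw [← hnegim]; exact hmeas a ha (-f))).resolve_left h⟩
  have huniq : ∀ X Y : Site d →+ ℝ, (∀ᵐ t ∂law v μ, t ∈ up v X ↔ t ∈ up v f) →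
      (∀ᵐ t ∂law v μ, t ∈ up v Y ↔ t ∈ up v f) → X = Y ∨ X = -Y → X = Y := by
    intro X Y hX hY h
    refine h.resolve_right fun hneq => hf (measure_eq_zero_iff_ae_notMem.2 ?_)
    filter_upwards [hX, hY] with t h1 h2 h3
    exact up_disjoint v Y t (h2.2 h3) (hneq ▸ h1.2 h3)
  set m := ∑ a ∈ G, H a
  have hm : law v μ (up v m) ≠ 0 := by
    intro h0
    refine hf (measure_eq_zero_iff_ae_notMem.2 ?_)
    have hall : ∀ᵐ t ∂law v μ, ∀ a ∈ G, (t ∈ up v (H a) ↔ t ∈ up v f) :=
      (ae_ball_iff G.countable_toSet).2 fun a ha => (hH a ha).2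
    filter_upwards [hall, measure_eq_zero_iff_ae_notMem.1 h0] with t h1 h2 h3
    refine h2 (tendsto_atTop.2 fun b => ?_)
    have hev : ∀ᶠ n in atTop, ∀ a ∈ G, |b| ≤ H a (pos v t n) := by
      rw [eventually_all_finset]
      exact fun a ha => tendsto_atTop.1 ((h1 a ha).2 h3) _
    filter_upwards [hev] with n hn
    have hsum := card_nsmul_le_sum G (fun a => H a (pos v t n)) |b| hn
    have hcard : (1 : ℝ) ≤ G.card := by exact_mod_cast hne.card_pos
    simp only [m, AddMonoidHom.finsetSum_apply, nsmul_eq_mul] at hsum ⊢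
    nlinarith [le_abs_self b, abs_nonneg b]
  have key : ∀ b ∈ G, im b m = m ∨ im b m = -m := by
    intro b hb
    have hreindex : ∑ a ∈ G, H (a * b) = m := by
      have himg : G.image (fun a => a * b) = G := eq_of_subset_of_card_le
        (fun x hx => by
          obtain ⟨a, ha, rfl⟩ := mem_image.1 hx
          exact hG a ha b hb)
        (by rw [card_image_of_injective _ (mul_left_injective b)])
      calc ∑ a ∈ G, H (a * b) = ∑ x ∈ G.image (fun a => a * b), H x :=
            (sum_image fun a _ a' _ h => mul_left_injective b h).symm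
        _ = m := by rw [himg]
    have hcomp : ∀ a ∈ G, ∀ h, im b (im a h) = im (a * b) h := fun a ha h => by
      exact DFunLike.ext _ _ fun z => congrArg h (hhom a ha b hb z).symm
    have hXY : ∀ a ∈ G, im b (H a) = im (a * b) f ∨ im b (H a) = -im (a * b) f := fun a ha => by
      rcases (hH a ha).1 with e | e <;> rw [e]
      · exact Or.inl (hcomp a ha f)
      · exact Or.inr (by rw [hnegim, hcomp a ha f])
    have hsum : im b m = ∑ a ∈ G, im b (H a) := by
      ext z
      simp [m, him, AddMonoidHom.finsetSum_apply]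
    rcases (hH b hb).1 with e | e
    · left
      have hfb : ∀ᵐ t ∂law v μ, t ∈ up v (im b f) ↔ t ∈ up v f := e ▸ (hH b hb).2
      rw [hsum, ← hreindex]
      refine sum_congr rfl fun a ha => huniq _ _ ?_ (hH _ (hG a ha b hb)).2 ?_
      · filter_upwards [hpull b hb _ _ (hH a ha).2, hfb] with t h1 h2 using h1.trans h2
      · rcases hXY a ha with h1 | h1 <;> rcases (hH _ (hG a ha b hb)).1 with h2 | h2 <;>
          simp [h1, h2]
    · right
      have hfb : ∀ᵐ t ∂law v μ, t ∈ up v (-im b f) ↔ t ∈ up v f := e ▸ (hH b hb).2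
      rw [hsum, ← hreindex, ← sum_neg_distrib]
      refine sum_congr rfl fun a ha => neg_eq_iff_eq_neg.1
        (huniq _ _ ?_ (hH _ (hG a ha b hb)).2 ?_)
      · have hHa : law v μ (up v (H a)) ≠ 0 := fun h0 => hf (by
          rw [← h0]; exact (measure_congr (eventuallyEq_set.2 (hH a ha).2)).symm)
        filter_upwards [hpull b hb _ _ (hneg _ _ hHa hf (hH a ha).2), hfb] with t h1 h2
        rw [hnegim, hnegim] at h1
        exact h1.trans h2
      · rcases hXY a ha with h1 | h1 <;> rcases (hH _ (hG a ha b hb)).1 with h2 | h2 <;>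
          simp [h1, h2]
  refine ⟨m, fun a ha => (key a ha).imp
    (fun h z => DFunLike.congr_fun h z) (fun h z => DFunLike.congr_fun h z), hm, fun hf' h0 => ?_,
    fun z hz => ?_⟩
  swap
  · simp only [m, AddMonoidHom.finsetSum_apply]
    refine sum_eq_zero fun a ha => ?_
    rcases (hH a ha).1 with e | e <;> simp [e, him, hz a ha]
  refine hf' (measure_eq_zero_iff_ae_notMem.2 ?_)
  have hall : ∀ᵐ t ∂law v μ, ∀ a ∈ G, (t ∈ up v (-H a) ↔ t ∈ up v (-f)) :=
    (ae_ball_iff G.countable_toSet).2 fun a ha => hneg _ _ (fun hz => hf (by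
      rw [← hz]; exact (measure_congr (eventuallyEq_set.2 (hH a ha).2)).symm)) hf (hH a ha).2
  filter_upwards [hall, measure_eq_zero_iff_ae_notMem.1 h0] with t h1 h2 h3
  refine h2 (tendsto_atTop.2 fun b => ?_)
  have hev : ∀ᶠ n in atTop, ∀ a ∈ G, |b| ≤ -H a (pos v t n) := by
    rw [eventually_all_finset]
    exact fun a ha => tendsto_atTop.1 ((h1 a ha).2 h3) |b|
  filter_upwards [hev] with n hn
  have hsum := card_nsmul_le_sum G (fun a => -H a (pos v t n)) |b| hn
  have hcard : (1 : ℝ) ≤ G.card := by exact_mod_cast hne.card_pos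
  simp only [m, AddMonoidHom.finsetSum_apply, AddMonoidHom.neg_apply, sum_neg_distrib,
    nsmul_eq_mul] at hsum ⊢
  nlinarith [le_abs_self b, abs_nonneg b]

theorem up_zero_null : law v μ (up v (0 : Site d →+ ℝ)) = 0 := by
  by_contra h
  obtain ⟨i, hi⟩ := exists_pos_step v μ h
  simp at hi

theorem no_escape_of_symmetry (hpos : ∀ i, ∀ᵐ p ∂μ, 0 < p.1 i)
    (G : Finset (Equiv.Perm (Fin k))) (hne : G.Nonempty) (hG : ∀ a ∈ G, ∀ b ∈ G, a * b ∈ G)
    (g : Equiv.Perm (Fin k) → Site d ≃+ Site d)
    (hv : ∀ a ∈ G, ∀ i, v (a i) = g a (v i))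
    (hhom : ∀ a ∈ G, ∀ b ∈ G, ∀ z, g (a * b) z = g a (g b z))
    (hinv : ∀ a ∈ G, μ.map (fun p : Row k => (p.1 ∘ a)) = μ.map Subtype.val)
    (hline : ∀ m : Site d →+ ℝ, (∀ a ∈ G, (∀ z, m (g a z) = m z) ∨ ∀ z, m (g a z) = -m z) → m = 0)
    (f : Site d →+ ℝ) : law v μ (up v f) = 0 := by
  by_contra hf
  obtain ⟨m, hm1, hm2, -⟩ := exists_invariant_direction v μ hpos G hne hG g hv hhom hinv f hf
  rw [hline m hm1] at hm2
  exact hm2 (up_zero_null v μ)

/-- With a nonnegative drift in a direction there is no escape against it. -/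
theorem no_escape_against_drift (f : Site d →+ ℝ)
    (hdr : ∀ᵐ p ∂μ, ∑ i, (p.1 i : ℝ) * f (v i) ≤ 0) : law v μ (up v f) = 0 := by
  classical
  set P := law v μ
  set b := ∑ i, |f (v i)|
  have hb : ∀ i, |f (v i)| ≤ b := fun i =>
    single_le_sum (f := fun i => |f (v i)|) (fun j _ => abs_nonneg _) (mem_univ i)
  have hb0 : 0 ≤ b := (abs_nonneg _).trans (hb 0)
  set alive : ℕ → (ℕ → Fin k) → Prop := fun n t => ∀ j < n, 0 ≤ f (pos v t j)
  set F : ℕ → (ℕ → Fin k) → ℝ := fun n t =>
    ∑ j ∈ range n, if alive (j + 1) t then f (v (t j)) else 0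
  have hcyl : ∀ n (s : ℕ → Fin k), MeasurableSet {t : ℕ → Fin k | ∀ i < n, t i = s i} :=
    fun n s => measurable_mem (n := n) fun t t' h ht i hi => (h i hi).symm.trans (ht i hi)
  have hterm : ∀ j, Measurable fun t : ℕ → Fin k => if alive (j + 1) t then f (v (t j)) else 0 :=
    fun j => Measurable.ite
      (measurable_mem (n := j + 1) fun t t' h ht i hi => by
        have := ht i hi
        rwa [← pos_congr v h hi.le])
      ((measurable_of_finite fun i => f (v i)).comp (measurable_pi_apply j)) measurable_const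
  have hint : ∀ j, Integrable (fun t => if alive (j + 1) t then f (v (t j)) else 0) P := fun j =>
    Integrable.of_bound (hterm j).aestronglyMeasurable b (Eventually.of_forall fun t => by
      rw [Real.norm_eq_abs]
      split_ifs
      exacts [hb _, by rw [abs_zero]; exact hb0])
  have hstep : ∀ j, ∫ t, (if alive (j + 1) t then f (v (t j)) else 0) ∂P ≤ 0 := by
    intro j
    have hfun : (fun t : ℕ → Fin k => if alive (j + 1) t then f (v (t j)) else 0) = fun t =>
        ∑ w : Fin j → Fin k, if alive (j + 1) (ext' w) then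
          ∑ i, ({t | ∀ l < j + 1, t l = Function.update (ext' w) j i l}).indicator
            (fun _ => f (v i)) t else 0 := by
      funext t
      set w0 : Fin j → Fin k := fun l => t l
      have hw : ∀ l < j, ext' w0 l = t l := fun l hl => by simp [ext', w0, hl]
      rw [Finset.sum_eq_single w0]
      · have halive : alive (j + 1) (ext' w0) ↔ alive (j + 1) t := forall₂_congr fun l hl => by
          rw [pos_congr v hw (Nat.le_of_lt_succ hl)]
        simp only [halive]
        split_ifs
        · rw [Finset.sum_eq_single (t j)]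
          · rw [Set.indicator_of_mem]
            intro l hl
            rcases Nat.lt_succ_iff_lt_or_eq.1 hl with hl | rfl
            · rw [Function.update_of_ne hl.ne, hw l hl]
            · rw [Function.update_self]
          · intro i _ hi
            rw [Set.indicator_of_notMem]
            intro h
            have := h j j.lt_succ_self
            rw [Function.update_self] at this
            exact hi this.symm
          · simp
        · rfl
      · intro w _ hne
        split_ifs
        · refine sum_eq_zero fun i _ => ?_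
          rw [Set.indicator_of_notMem]
          intro h
          refine hne (funext fun l => ?_)
          have := h l (l.2.trans j.lt_succ_self)
          rw [Function.update_of_ne l.2.ne] at this
          simp [ext'] at this
          simp [w0, this]
        · rfl
      · simp
    rw [hfun, integral_finset_sum]
    · refine sum_nonpos fun w _ => ?_
      split_ifs
      · rw [integral_finset_sum _ fun i _ => (integrable_const _).indicator (hcyl _ _)]
        simp only [integral_indicator_const _ (hcyl _ _), measureReal_def, P, law_prefix,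
          weight_succ, smul_eq_mul]
        set s := ext' w
        set x := pos v s j
        have hW : ∀ i, (∫⁻ ω, weight v s j ω * ENNReal.ofReal ((ω x).1 i) ∂envLaw μ).toReal =
            ∫ ω, (weight v s j ω).toReal * (ω x).1 i ∂envLaw μ := fun i => by
          have hgm : Measurable fun ω : Site d → Row k => ENNReal.ofReal ((ω x).1 i) :=
            Measurable.comp (g := fun p : Row k => ENNReal.ofReal (p.1 i))
              (f := fun ω : Site d → Row k => ω x) (measurable_row i) (measurable_pi_apply x)
          rw [← integral_toReal ((measurable_weight v s j).fun_mul hgm).aemeasurable]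
          · exact integral_congr_ae (Eventually.of_forall fun ω => by
              simp [ENNReal.toReal_ofReal ((ω x).2.1 i)])
          · refine Eventually.of_forall fun ω => ENNReal.mul_lt_top ?_ ENNReal.ofReal_lt_top
            exact (weight_le_one v s j ω).trans_lt ENNReal.one_lt_top
        simp only [hW]
        simp only [← integral_mul_const]
        rw [← integral_finset_sum]
        · refine integral_nonpos_of_ae ?_
          filter_upwards [(measurePreserving_eval_infinitePi (fun _ : Site d => μ)
            x).quasiMeasurePreserving.ae hdr] with ω hω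
          simp only [Pi.zero_apply, mul_assoc, ← mul_sum]
          exact mul_nonpos_of_nonneg_of_nonpos ENNReal.toReal_nonneg hω
        · intro i _
          refine Integrable.mul_const ?_ _
          refine Integrable.of_bound ?_ 1 (Eventually.of_forall fun ω => ?_)
          · exact (((measurable_weight v s j).ennreal_toReal).fun_mul
              (Measurable.comp (g := fun p : Row k => p.1 i) (f := fun ω : Site d → Row k => ω x)
                ((measurable_pi_apply i).comp measurable_subtype_coe)
                (measurable_pi_apply x))).aestronglyMeasurable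
          · have h1 : (weight v s j ω).toReal ≤ 1 :=
              ENNReal.toReal_le_of_le_ofReal zero_le_one (by simpa using weight_le_one v s j ω)
            have h2 : (ω x).1 i ≤ 1 :=
              ((single_le_sum (fun l _ => (ω x).2.1 l) (mem_univ i))).trans_eq (ω x).2.2
            rw [Real.norm_eq_abs, abs_of_nonneg
              (mul_nonneg ENNReal.toReal_nonneg ((ω x).2.1 i))]
            exact mul_le_one₀ h1 ((ω x).2.1 i) h2
      · simp
    · intro w _
      split_ifs
      · exact integrable_finset_sum _ fun i _ => (integrable_const _).indicator (hcyl _ _)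
      · exact integrable_zero _ _ _
  have hEF : ∀ n, ∫ t, F n t ∂P ≤ 0 := fun n => by
    simp only [F]
    rw [integral_finset_sum _ fun j _ => hint j]
    exact sum_nonpos fun j _ => hstep j
  have hFa : ∀ n t, alive n t → F n t = f (pos v t n) := fun n t h => by
    simp only [F, pos, map_sum]
    exact sum_congr rfl fun j hj => if_pos fun l hl =>
      h l (hl.trans_le (mem_range.1 hj))
  have hlow : ∀ n t, -b ≤ F n t := fun n => by
    induction n with
    | zero => intro t; simp [F]; exact hb0
    | succ n ih =>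
      intro t
      have hs : F (n + 1) t = F n t + if alive (n + 1) t then f (v (t n)) else 0 :=
        sum_range_succ _ _
      rw [hs]
      split_ifs with h
      · rw [hFa n t fun j hj => h j (hj.trans n.lt_succ_self)]
        have := h n n.lt_succ_self
        have := (abs_le.1 (hb (t n))).1
        linarith
      · simpa using ih t
  have hmS := (measurableSet_up v f).inter (measurableSet_stay v f)
  have h0 : P (up v f ∩ stay v f) = 0 := by
    by_contra h
    have hpos' : 0 < P.real (up v f ∩ stay v f) :=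
      ENNReal.toReal_pos h (measure_ne_top _ _)
    set L := b / (P.real (up v f ∩ stay v f) / 2)
    set B : ℕ → Set (ℕ → Fin k) := fun N =>
      {t | ∀ n ≥ N, L ≤ f (pos v t n)} ∩ stay v f
    have hBmono : Monotone B := fun a c hac t ht => ⟨fun n hn => ht.1 n (hac.trans hn), ht.2⟩
    have hsub : up v f ∩ stay v f ⊆ ⋃ N, B N := fun t ht => by
      obtain ⟨N, hN⟩ := eventually_atTop.1 (tendsto_atTop.1 ht.1 L)
      exact Set.mem_iUnion.2 ⟨N, hN, ht.2⟩
    obtain ⟨N, hN⟩ : ∃ N, P.real (up v f ∩ stay v f) / 2 < P.real (B N) := by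
      by_contra hc
      push Not at hc
      have : P (⋃ N, B N) ≤ ENNReal.ofReal (P.real (up v f ∩ stay v f) / 2) := by
        rw [hBmono.measure_iUnion]
        exact iSup_le fun N => ENNReal.le_ofReal_iff_toReal_le (measure_ne_top _ _)
          (by linarith) |>.2 (hc N)
      have := ENNReal.toReal_le_of_le_ofReal (by linarith) ((measure_mono hsub).trans this)
      rw [measureReal_def] at hpos'
      linarith [measureReal_def P (up v f ∩ stay v f)]
    have hBm : MeasurableSet (B N) := by
      refine MeasurableSet.inter ?_ (measurableSet_stay v f)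
      simp only [Set.setOf_forall]
      exact .iInter fun n => .iInter fun _ =>
        measurableSet_le measurable_const (measurable_height v f n)
    have hI : ∫ t, ((B N).indicator (fun _ => L + b) t - b) ∂P ≤ ∫ t, F N t ∂P := by
      refine integral_mono (((integrable_const _).indicator hBm).sub (integrable_const _))
        (integrable_finset_sum _ fun j _ => hint j) fun t => ?_
      by_cases ht : t ∈ B N
      · rw [Set.indicator_of_mem ht, hFa N t fun j _ => ht.2 j]
        linarith [ht.1 N le_rfl]
      · rw [Set.indicator_of_notMem ht]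
        simpa using hlow N t
    rw [integral_sub ((integrable_const _).indicator hBm) (integrable_const _),
      integral_indicator_const _ hBm, integral_const, probReal_univ, one_smul, smul_eq_mul] at hI
    have hI' := hI.trans (hEF N)
    rcases hb0.eq_or_lt with hb1 | hb1
    · obtain ⟨i, hi⟩ := exists_pos_step v μ (h := f)
        fun hz => h (measure_mono_null Set.inter_subset_left hz)
      linarith [(abs_le.1 (hb i)).2]
    · have hL : L * (P.real (up v f ∩ stay v f) / 2) = b := div_mul_cancel₀ _ (by positivity)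
      nlinarith [mul_pos hb1 hpos']
  refine measure_mono_null ?_ (measure_iUnion_null fun n => law_shift_null v μ n hmS h0)
  intro t ht
  obtain ⟨n, hn⟩ := Tendsto.exists_forall_le (f := fun m => f (pos v t m))
    (by rw [Nat.cofinite_eq_atTop]; exact ht)
  refine Set.mem_iUnion.2 ⟨n, ?_, fun m => ?_⟩
  · exact ((shift_invariant (up_invariant v f) n t).2 ht)
  · have := hn (n + m)
    rw [pos_add, map_add] at this
    linarith

/-- Symmetry leaving one axis and a drift of constant sign along it give the zero-one law. -/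
theorem zero_one_of_axis_drift (hpos : ∀ i, ∀ᵐ p ∂μ, 0 < p.1 i)
    (G : Finset (Equiv.Perm (Fin k))) (hne : G.Nonempty) (hG : ∀ a ∈ G, ∀ b ∈ G, a * b ∈ G)
    (g : Equiv.Perm (Fin k) → Site d ≃+ Site d)
    (hv : ∀ a ∈ G, ∀ i, v (a i) = g a (v i))
    (hhom : ∀ a ∈ G, ∀ b ∈ G, ∀ z, g (a * b) z = g a (g b z))
    (hinv : ∀ a ∈ G, μ.map (fun p : Row k => (p.1 ∘ a)) = μ.map Subtype.val)
    (m0 : Site d →+ ℝ) (hline : ∀ m : Site d →+ ℝ,
      (∀ a ∈ G, (∀ z, m (g a z) = m z) ∨ ∀ z, m (g a z) = -m z) →
      ∃ c : ℝ, ∀ z, m z = c * m0 z)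
    (hdr : ∀ᵐ p ∂μ, 0 ≤ ∑ i, (p.1 i : ℝ) * m0 (v i))
    (f : Site d →+ ℝ) : law v μ (up v f) = 0 ∨ law v μ (up v f) = 1 := by
  by_cases hf : law v μ (up v f) = 0
  · exact Or.inl hf
  right
  obtain ⟨m, hm1, hm2, hm3, -⟩ := exists_invariant_direction v μ hpos G hne hG g hv hhom hinv f hf
  obtain ⟨c, hc⟩ := hline m hm1
  have hval : ∀ p : Row k, ∑ i, p.1 i * m (v i) = c * ∑ i, p.1 i * m0 (v i) := fun p => by
    rw [mul_sum]
    exact sum_congr rfl fun i _ => by rw [hc]; ring
  rcases le_total c 0 with h | h
  · exfalso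
    refine hm2 (no_escape_against_drift v μ m ?_)
    filter_upwards [hdr] with p hp
    rw [hval]
    exact mul_nonpos_of_nonpos_of_nonneg h hp
  · have hnf : law v μ (up v (-f)) = 0 := by
      by_contra hnf
      refine hm3 hnf (no_escape_against_drift v μ (-m) ?_)
      filter_upwards [hdr] with p hp
      simp only [AddMonoidHom.neg_apply, mul_neg, sum_neg_distrib, hval]
      exact neg_nonpos.2 (mul_nonneg h hp)
    rw [← prob_compl_eq_zero_iff (measurableSet_up v f)]
    refine measure_eq_zero_iff_ae_notMem.2 ?_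
    filter_upwards [union_ae v μ hpos hf, measure_eq_zero_iff_ae_notMem.1 hnf] with t h1 h2 h3
    exact h3 (h1.resolve_right h2)

end Vale.Agent.P147.Cond
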